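import Vale.Agent.P032.H838.GD.E0
import Vale.Agent.P032.H838.GD.E1
import Vale.Agent.P032.H838.GD.E2
import Vale.Agent.P032.H838.GD.E3
import Vale.Agent.P032.H838.GD.E4
import Vale.Agent.P032.H838.GD.E5
import Vale.Agent.P032.H838.GD.E6
import Vale.Agent.P032.H838.GD.E7
import Vale.Agent.P032.H838.GD.E8
import Vale.Agent.P032.H838.GD.E9
import Vale.Agent.P032.H838.GD.E10
import Vale.Agent.P032.H838.GD.E11
import Vale.Agent.P032.H838.GD.N0
import Vale.Agent.P032.H838.GD.N1
import Vale.Agent.P032.H838.GD.N2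
import Vale.Agent.P032.H838.GD.N3
import Vale.Agent.P032.H838.GD.N4
import Vale.Agent.P032.H838.GD.N5
import Vale.Agent.P032.H838.GD.N6
import Vale.Agent.P032.H838.GD.N7

/-!
# The general end, data: the tables
-/

set_option maxRecDepth 20000

namespace Vale.Agent.P032.H838.GD

open Vale.Agent.P032.H728.G

def tC0 : BT (Nat × Nat) :=
  (.bin 27 (.bin 13 (.bin 6 (.bin 2 (.bin 0 (.tip (21529757320, 648204308)) (.bin 1 (.tip (21529757320, 648237076)) (.tip (21529757320, 651382804)))) (.bin 4 (.bin 3 (.tip (21529757320, 512938036)) (.tip (21529757320, 513986612))) (.bin 5 (.tip (21529757320, 512905300)) (.tip (21529757320, 513953876))))) (.bin 9 (.bin 7 (.tip (21529757320, 512938068)) (.bin 8 (.tip (21529757320, 513986644)) (.tip (21529757320, 513036372)))) (.bin 11 (.bin 10 (.tip (21529757320, 514084948)) (.tip (40047658632, 357745708))) (.bin 12 (.tip (40047658632, 357778476)) (.tip (40047658632, 458441772)))))) (.bin 20 (.bin 16 (.bin 14 (.tip (40047658632, 356698156)) (.bin 15 (.tip (40047658632,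 357745740)) (.tip (40047658632, 357844044)))) (.bin 18 (.bin 17 (.tip (40047658632, 357778508)) (.tip (40047658632, 458441804))) (.bin 19 (.tip (40047658632, 357876812)) (.tip (40047658632, 357975116))))) (.bin 23 (.bin 21 (.tip (40047658632, 458540108)) (.bin 22 (.tip (40047658632, 356730924)) (.tip (40047658632, 457394220)))) (.bin 25 (.bin 24 (.tip (40047658632, 356665420)) (.tip (40047658632, 357713996))) (.bin 26 (.tip (40047658632, 335693900)) (.tip (40047658632, 358762572))))))) (.bin 41 (.bin 34 (.bin 30 (.bin 28 (.tip (40047658632, 457394252)) (.bin 29 (.tip (40047658632, 336742476)) (.tip (40047658632, 339888204)))) (.bin 32 (.bin 31 (.tip (40047658632, 457492556)) (.tip (40047658632, 357746732))) (.bin 33 (.tip (40047658632, 335726636)) (.tip (40047658632, 357779500))))) (.bin 37 (.bin 35 (.tip (40047658632, 458442796)) (.bin 36 (.tip (40047658632, 335759404)) (.tip (40047658632, 436422700)))) (.bin 39 (.bin 38 (.tip (40047658632, 357746764)) (.tip (40047658632, 357845068))) (.bin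 40 (.tip (40047658632, 335726668)) (.tip (40047658632, 335824972)))))) (.bin 48 (.bin 44 (.bin 42 (.tip (40047658632, 357779532)) (.bin 43 (.tip (40047658632, 458442828)) (.tip (40047658632, 335759436)))) (.bin 46 (.bin 45 (.tip (40047658632, 436422732)) (.tip (40047658632, 357877836))) (.bin 47 (.tip (40047658632, 357976140)) (.tip (40047658632, 458541132))))) (.bin 52 (.bin 50 (.bin 49 (.tip (40047658632, 335857740)) (.tip (40047658632, 335956044))) (.bin 51 (.tip (40047658632, 436521036)) (.tip (40047658632, 324191277)))) (.bin 54 (.bin 53 (.tip (40047658632, 357745709)) (.tip (40047658632, 424887341))) (.bin 55 (.tip (40047658632, 357778477)) (.tip (40047658632, 424887373))))))))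

def tC1 : BT (Nat × Nat) :=
  (.bin 84 (.bin 70 (.bin 63 (.bin 59 (.bin 57 (.tip (40047658632, 458441773)) (.bin 58 (.tip (40047658632, 559105069)) (.tip (40047658632, 424985677)))) (.bin 61 (.bin 60 (.tip (40047658632, 325272621)) (.tip (40047658632, 425935917))) (.bin 62 (.tip (40047658632, 357844045)) (.tip (40047658632, 302270541))))) (.bin 66 (.bin 64 (.tip (40047658632, 357778509)) (.bin 65 (.tip (40047658632, 425935949)) (.tip (40047658632, 458441805)))) (.bin 68 (.bin 67 (.tip (40047658632, 559105101)) (.tip (40047658632, 426034253))) (.bin 69 (.tip (40047658632, 357876813)) (.tip (40047658632, 357975117)))))) (.bin 77 (.bin 73 (.bin 71 (.tip (40047658632, 303319117)) (.bin 72 (.tip (40047658632, 306464845)) (.tip (40047658632, 458540109)))) (.bin 75 (.bin 74 (.tip (40047658632, 559203405)) (.tip (40047658632, 426034349))) (.bin 76 (.tip (40047658632, 357746765)) (.tip (40047658632, 335726669))))) (.bin 80 (.bin 78 (.tip (40047658632, 335824973)) (.bin 79 (.tip (40047658632, 425939086))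 (.tip (21529757320, 511922228)))) (.bin 82 (.bin 81 (.tip (21529757320, 512970804)) (.tip (21529757320, 514019380))) (.bin 83 (.tip (21529757320, 516116532)) (.tip (21529757320, 517165108))))))) (.bin 98 (.bin 91 (.bin 87 (.bin 85 (.tip (21529757320, 520310836)) (.bin 86 (.tip (21529757320, 512970836)) (.tip (21529757320, 514019412)))) (.bin 89 (.bin 88 (.tip (21529757320, 516116564)) (.tip (21529757320, 517165140))) (.bin 90 (.tip (21529757320, 520310868)) (.tip (21529757320, 514117716))))) (.bin 94 (.bin 92 (.tip (40047658632, 358794252)) (.bin 93 (.tip (40047658632, 358794284)) (.tip (40047658632, 358794380)))) (.bin 96 (.bin 95 (.tip (40047658632, 358794316)) (.tip (40047658632, 358892620))) (.bin 97 (.tip (40047658632, 358794412)) (.tip (40047658632, 358794508)))))) (.bin 105 (.bin 101 (.bin 99 (.tip (40047658632, 358892716)) (.bin 100 (.tip (40047658632, 358794285)) (.tip (40047658632, 302204973)))) (.bin 103 (.bin 102 (.tip (40047658632, 402868269)) (.tip (40047658632, 357779501)))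 (.bin 104 (.tip (40047658632, 335759405)) (.tip (40047658632, 358892621))))) (.bin 109 (.bin 107 (.bin 106 (.tip (40047658632, 425937037)) (.tip (40047658632, 303253549))) (.bin 108 (.tip (40047658632, 436422701)) (.tip (40047658632, 306399277)))) (.bin 111 (.bin 110 (.tip (40047658632, 537085997)) (.tip (40047658632, 303253645))) (.bin 112 (.tip (40047658632, 403916941)) (.tip (40047658632, 359023692))))))))

def tC2 : BT (Nat × Nat) :=
  (.bin 141 (.bin 127 (.bin 120 (.bin 116 (.bin 114 (.tip (40047658632, 358827052)) (.bin 115 (.tip (40047658632, 358827084)) (.tip (40047658632, 358925388)))) (.bin 118 (.bin 117 (.tip (40047658632, 359023788)) (.tip (40047658632, 459490380))) (.bin 119 (.tip (40047658632, 459588684)) (.tip (40047658632, 359023693))))) (.bin 123 (.bin 121 (.tip (40047658632, 358827148)) (.bin 122 (.tip (40047658632, 358827180)) (.tip (40047658632, 358827276)))) (.bin 125 (.bin 124 (.tip (40047658632, 358925484)) (.tip (40047658632, 358795308))) (.bin 126 (.tip (40047658632,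 358795340)) (.tip (40047658632, 358893644)))))) (.bin 134 (.bin 130 (.bin 128 (.tip (40047658632, 359024716)) (.bin 129 (.tip (40047658632, 358795404)) (.tip (40047658632, 358795436)))) (.bin 132 (.bin 131 (.tip (40047658632, 358795532)) (.tip (40047658632, 358893740))) (.bin 133 (.tip (40047658632, 358828108)) (.tip (40047658632, 358926412))))) (.bin 137 (.bin 135 (.tip (40047658632, 359024812)) (.bin 136 (.tip (40047658632, 336775244)) (.tip (40047658632, 336873548)))) (.bin 139 (.bin 138 (.tip (40047658632, 337004620)) (.tip (40047658632, 358827053))) (.bin 140 (.tip (40047658632, 358827085)) (.tip (40047658632, 358925389))))))) (.bin 155 (.bin 148 (.bin 144 (.bin 142 (.tip (40047658632, 358795341)) (.bin 143 (.tip (40047658632, 358893645)) (.tip (40047658632, 359023789)))) (.bin 146 (.bin 145 (.tip (40047658632, 424888397)) (.tip (40047658632, 425936973))) (.bin 147 (.tip (40047658632, 425937069)) (.tip (40047658632, 425937165))))) (.bin 151 (.bin 149 (.tip (40047658632, 458442829)) (.bin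 150 (.tip (40047658632, 559106125)) (.tip (40047658632, 358893741)))) (.bin 153 (.bin 152 (.tip (40047658632, 302205005)) (.tip (40047658632, 335759437))) (.bin 154 (.tip (40047658632, 335824974)) (.tip (40047658632, 303253581)))))) (.bin 162 (.bin 158 (.bin 156 (.tip (40047658632, 306399309)) (.bin 157 (.tip (40047658632, 358925485)) (.tip (40047658632, 402868301)))) (.bin 160 (.bin 159 (.tip (40047658632, 403916877)) (.tip (40047658632, 403916973))) (.bin 161 (.tip (40047658632, 403917069)) (.tip (40047658632, 407062605))))) (.bin 166 (.bin 164 (.bin 163 (.tip (40047658632, 436422733)) (.tip (40047658632, 537086029))) (.bin 165 (.tip (40047658632, 426037326)) (.tip (21529757320, 511922260)))) (.bin 168 (.bin 167 (.tip (21529757320, 513069140)) (.tip (21529757320, 513167444))) (.bin 169 (.tip (21529757320, 514216020)) (.tip (21529757320, 516214868))))))))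

def tC3 : BT (Nat × Nat) :=
  (.bin 198 (.bin 184 (.bin 177 (.bin 173 (.bin 171 (.tip (21529757320, 517263444)) (.bin 172 (.tip (21529757320, 520409172)) (.tip (40047658632, 459490348)))) (.bin 175 (.bin 174 (.tip (40047658632, 459490476)) (.tip (40047658632, 459588780))) (.bin 176 (.tip (40047658632, 459490572)) (.tip (40047658632, 459490381))))) (.bin 180 (.bin 178 (.tip (40047658632, 459588685)) (.bin 179 (.tip (40047658632, 459490444)) (.tip (40047658632, 339920940)))) (.bin 182 (.bin 181 (.tip (40047658632, 339920972)) (.tip (40047658632, 340019276))) (.bin 183 (.tip (40047658632, 340150348)) (.tip (40047658632, 459491404)))))) (.bin 191 (.bin 187 (.bin 185 (.tip (40047658632, 459589708)) (.bin 186 (.tip (40047658632, 560153677)) (.tip (40047658632, 426035277)))) (.bin 189 (.bin 188 (.tip (40047658632, 560251981)) (.tip (40047658632, 426035373))) (.bin 190 (.tip (40047658632, 358828300)) (.tip (40047658632, 336775436))))) (.bin 194 (.bin 192 (.tip (40047658632, 306497613)) (.bin 193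 (.tip (40047658632, 358827020)) (.tip (40047658632, 358828076)))) (.bin 196 (.bin 195 (.tip (40047658632, 358828172)) (.tip (40047658632, 358828204))) (.bin 197 (.tip (40047658632, 358926508)) (.tip (40047658632, 336775212))))))) (.bin 212 (.bin 205 (.bin 201 (.bin 199 (.tip (40047658632, 336775308)) (.bin 200 (.tip (40047658632, 336775340)) (.tip (40047658632, 336873644)))) (.bin 203 (.bin 202 (.tip (40047658632, 336808012)) (.tip (40047658632, 336906316))) (.bin 204 (.tip (40047658632, 337004716)) (.tip (40047658632, 459490349))))) (.bin 208 (.bin 206 (.tip (40047658632, 336775245)) (.bin 207 (.tip (40047658632, 336873549)) (.tip (40047658632, 560153645)))) (.bin 210 (.bin 209 (.tip (40047658632, 339920973)) (.tip (40047658632, 340019277))) (.bin 211 (.tip (40047658632, 424986701)) (.tip (40047658632, 458541133)))))) (.bin 219 (.bin 215 (.bin 213 (.tip (40047658632, 559204429)) (.bin 214 (.tip (40047658632, 336873645)) (.tip (40047658632, 359024717)))) (.bin 217 (.bin 216 (.tip (40047658632,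 302303309)) (.tip (40047658632, 335857741))) (.bin 218 (.tip (40047658632, 459493518)) (.tip (40047658632, 303351885))))) (.bin 223 (.bin 221 (.bin 220 (.tip (40047658632, 459588781)) (.tip (40047658632, 302401613))) (.bin 222 (.tip (40047658632, 335956045)) (.tip (40047658632, 303450189)))) (.bin 225 (.bin 224 (.tip (40047658632, 560252077)) (.tip (40047658632, 306595917))) (.bin 226 (.tip (40047658632, 425918606)) (.tip (40047658632, 402966605))))))))

def tC4 : BT (Nat × Nat) :=
  (.bin 255 (.bin 241 (.bin 234 (.bin 230 (.bin 228 (.tip (40047658632, 404015181)) (.bin 229 (.tip (40047658632, 404015277)) (.tip (40047658632, 407160909)))) (.bin 232 (.bin 231 (.tip (40047658632, 436521037)) (.tip (40047658632, 537184333))) (.bin 233 (.tip (40047658632, 403920014)) (.tip (40047658632, 358828077))))) (.bin 237 (.bin 235 (.tip (40047658632, 358828109)) (.bin 236 (.tip (40047658632, 358926413)) (.tip (40047658632, 358828110)))) (.bin 239 (.bin 238 (.tip (40047658632, 359024813)) (.tip (40047658632,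 337004621))) (.bin 240 (.tip (40047658632, 358828173)) (.tip (40047658632, 335759438)))))) (.bin 248 (.bin 244 (.bin 242 (.tip (40047658632, 336873550)) (.bin 243 (.tip (40047658632, 340019278)) (.tip (40047658632, 358828205)))) (.bin 246 (.bin 245 (.tip (40047658632, 358828301)) (.tip (40047658632, 358926509))) (.bin 247 (.tip (40047658632, 402868302)) (.tip (40047658632, 436422734))))) (.bin 251 (.bin 249 (.tip (40047658632, 459591758)) (.bin 250 (.tip (40047658632, 560255054)) (.tip (40047658632, 358875214)))) (.bin 253 (.bin 252 (.tip (40047658632, 459491500)) (.tip (40047658632, 459491596))) (.bin 254 (.tip (40047658632, 459589804)) (.tip (40047658632, 336808204))))))) (.bin 269 (.bin 262 (.bin 258 (.bin 256 (.tip (40047658632, 339953740)) (.bin 257 (.tip (40047658632, 459473038)) (.tip (40047658632, 340052044)))) (.bin 260 (.bin 259 (.tip (40047658632, 340150349)) (.tip (40047658632, 336808108))) (.bin 261 (.tip (40047658632, 336906412)) (.tip (40047658632, 337004717))))) (.bin 265 (.bin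 263 (.tip (40047658632, 459491405)) (.bin 264 (.tip (40047658632, 459589709)) (.tip (40047658632, 336808013)))) (.bin 267 (.bin 266 (.tip (40047658632, 336808014)) (.tip (40047658632, 336906317))) (.bin 268 (.tip (21529757320, 614649908)) (.tip (22200845960, 614649908)))))) (.bin 276 (.bin 272 (.bin 270 (.tip (47305852552, 681756724)) (.bin 271 (.tip (47574288008, 681756724)) (.tip (21529757320, 648204340)))) (.bin 274 (.bin 273 (.tip (21529757320, 648204436)) (.tip (21529757320, 648204564))) (.bin 275 (.tip (21529757320, 512020564)) (.tip (21529757320, 614682676))))) (.bin 280 (.bin 278 (.bin 277 (.tip (22200845960, 614682676)) (.tip (47305852552, 681789492))) (.bin 279 (.tip (47574288008, 681789492)) (.tip (21529757320, 648237108)))) (.bin 282 (.bin 281 (.tip (21529757320, 648237204)) (.tip (21529757320, 648237332))) (.bin 283 (.tip (21529757320, 617828404)) (.tip (22200845960, 617828404))))))))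

def tC5 : BT (Nat × Nat) :=
  (.bin 312 (.bin 298 (.bin 291 (.bin 287 (.bin 285 (.tip (47305852552, 684935220)) (.bin 286 (.tip (47574288008, 684935220)) (.tip (21529757320, 651382836)))) (.bin 289 (.bin 288 (.tip (21529757320, 651382932)) (.tip (21529757320, 614617172))) (.bin 290 (.tip (22200845960, 614617172)) (.tip (47305852552, 681723988))))) (.bin 294 (.bin 292 (.tip (47574288008, 681723988)) (.bin 293 (.tip (21529757320, 648171604)) (.tip (21529757320, 648171700)))) (.bin 296 (.bin 295 (.tip (21529757320, 614649940)) (.tip (22200845960, 614649940))) (.bin 297 (.tip (47305852552, 681756756)) (.tip (47574288008, 681756756)))))) (.bin 305 (.bin 301 (.bin 299 (.tip (21529757320, 648204372)) (.bin 300 (.tip (21529757320, 648204468)) (.tip (21529757320, 651383060)))) (.bin 303 (.bin 302 (.tip (21529757320, 614682708)) (.tip (22200845960, 614682708))) (.bin 304 (.tip (47305852552, 681789524)) (.tip (47574288008, 681789524))))) (.bin 308 (.bin 306 (.tip (21529757320, 648237140)) (.bin 307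 (.tip (21529757320, 648237236)) (.tip (21529757320, 617828436)))) (.bin 310 (.bin 309 (.tip (22200845960, 617828436)) (.tip (47305852552, 684935252))) (.bin 311 (.tip (47574288008, 684935252)) (.tip (21529757320, 651382868))))))) (.bin 326 (.bin 319 (.bin 315 (.bin 313 (.tip (21529757320, 651382964)) (.bin 314 (.tip (21529757320, 614748244)) (.tip (22200845960, 614748244)))) (.bin 317 (.bin 316 (.tip (47305852552, 681855060)) (.tip (47574288008, 681855060))) (.bin 318 (.tip (21529757320, 648302676)) (.tip (21529757320, 648302772))))) (.bin 322 (.bin 320 (.tip (21529757320, 614781012)) (.bin 321 (.tip (22200845960, 614781012)) (.tip (47305852552, 681887828)))) (.bin 324 (.bin 323 (.tip (47574288008, 681887828)) (.tip (21529757320, 648335444))) (.bin 325 (.tip (21529757320, 648335540)) (.tip (21529757320, 617926740)))))) (.bin 333 (.bin 329 (.bin 327 (.tip (22200845960, 617926740)) (.bin 328 (.tip (47305852552, 685033556)) (.tip (47574288008, 685033556)))) (.bin 331 (.bin 330 (.tip (21529757320,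 651481172)) (.tip (21529757320, 651481268))) (.bin 332 (.tip (21529757320, 614879316)) (.tip (22200845960, 614879316))))) (.bin 337 (.bin 335 (.bin 334 (.tip (47305852552, 681986132)) (.tip (47574288008, 681986132))) (.bin 336 (.tip (21529757320, 648433748)) (.tip (21529757320, 648433844)))) (.bin 339 (.bin 338 (.tip (40047658632, 459490316)) (.tip (40047658632, 459491372))) (.bin 340 (.tip (40047658632, 459491468)) (.tip (40047658632, 437471308))))))))

def tC6 : BT (Nat × Nat) :=
  (.bin 369 (.bin 355 (.bin 348 (.bin 344 (.bin 342 (.tip (40047658632, 437569612)) (.bin 343 (.tip (40047658632, 339953708)) (.tip (40047658632, 560154701)))) (.bin 346 (.bin 345 (.tip (40047658632, 426035278)) (.tip (40047658632, 560253005))) (.bin 347 (.tip (40047658632, 336811150)) (.tip (40047658632, 459491597))))) (.bin 351 (.bin 349 (.tip (40047658632, 336807980)) (.bin 350 (.tip (40047658632, 440617036)) (.tip (40047658632, 440715340)))) (.bin 353 (.bin 352 (.tip (40047658632, 336808076)) (.tip (40047658632,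 437471404))) (.bin 354 (.tip (40047658632, 437471500)) (.tip (40047658632, 437569708)))))) (.bin 362 (.bin 358 (.bin 356 (.tip (40047658632, 336808205)) (.bin 357 (.tip (40047658632, 339953709)) (.tip (40047658632, 339953741)))) (.bin 360 (.bin 359 (.tip (40047658632, 358809678)) (.tip (40047658632, 340052045))) (.bin 361 (.tip (40047658632, 335857742)) (.tip (40047658632, 459494542))))) (.bin 365 (.bin 363 (.tip (40047658632, 560136334)) (.bin 364 (.tip (40047658632, 560255150)) (.tip (40047658632, 336807981)))) (.bin 367 (.bin 366 (.tip (40047658632, 459491501)) (.tip (40047658632, 459589805))) (.bin 368 (.tip (40047658632, 336808109)) (.tip (40047658632, 336906413))))))) (.bin 383 (.bin 376 (.bin 372 (.bin 370 (.tip (40047658632, 459589710)) (.bin 371 (.tip (40047658632, 560253006)) (.tip (40047658632, 336906318)))) (.bin 374 (.bin 373 (.tip (40047658632, 340052046)) (.tip (40047658632, 336808077))) (.bin 375 (.tip (40047658632, 336906414)) (.tip (40047658632, 560154765))))) (.bin 379 (.bin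 377 (.tip (40047658632, 425918542)) (.bin 378 (.tip (40047658632, 560154797)) (.tip (40047658632, 459472974)))) (.bin 381 (.bin 380 (.tip (40047658632, 560253101)) (.tip (40047658632, 560253102))) (.bin 382 (.tip (40047658632, 560154893)) (.tip (40047658632, 560136270)))))) (.bin 390 (.bin 386 (.bin 384 (.tip (40047658632, 560157838)) (.bin 385 (.tip (40047658632, 404015182)) (.tip (40047658632, 404015278)))) (.bin 388 (.bin 387 (.tip (40047658632, 407160910)) (.tip (40047658632, 537184334))) (.bin 389 (.tip (40047658632, 459491469)) (.tip (40047658632, 459494574))))) (.bin 394 (.bin 392 (.bin 391 (.tip (40047658632, 459473070)) (.tip (40047658632, 560136366))) (.bin 393 (.tip (40047658632, 560136462)) (.tip (40047658632, 436521038)))) (.bin 396 (.bin 395 (.tip (40047658632, 459591854)) (.tip (40047658632, 402966606))) (.bin 397 (.tip (40047658632, 437471309)) (.tip (40047658632, 437471310))))))))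

def tC7 : BT (Nat × Nat) :=
  (.bin 426 (.bin 412 (.bin 405 (.bin 401 (.bin 399 (.tip (40047658632, 437569613)) (.bin 400 (.tip (40047658632, 437569614)) (.tip (40047658632, 440617004)))) (.bin 403 (.bin 402 (.tip (40047658632, 440617037)) (.tip (40047658632, 538134605))) (.bin 404 (.tip (40047658632, 358907982)) (.tip (40047658632, 335860814))))) (.bin 408 (.bin 406 (.tip (40047658632, 538232909)) (.bin 407 (.tip (40047658632, 538232910)) (.tip (40047658632, 437474446)))) (.bin 410 (.bin 409 (.tip (40047658632, 437471501)) (.tip (40047658632, 340055118))) (.bin 411 (.tip (40047658632, 440715341)) (.tip (40047658632, 440715342)))))) (.bin 419 (.bin 415 (.bin 413 (.tip (40047658632, 336909390)) (.bin 414 (.tip (40047658632, 560256174)) (.tip (40047658632, 437474478)))) (.bin 417 (.bin 416 (.tip (40047658632, 437471276)) (.tip (40047658632, 538134573))) (.bin 418 (.tip (40047658632, 541280301)) (.tip (40047658632, 541280333))))) (.bin 422 (.bin 420 (.tip (40047658632, 359006286)) (.bin 421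 (.tip (40047658632, 358828044)) (.tip (40047658632, 541378637)))) (.bin 424 (.bin 423 (.tip (40047658632, 336807948)) (.tip (40047658632, 437471372))) (.bin 425 (.tip (40047658632, 541378638)) (.tip (40047658632, 437471244))))))) (.bin 440 (.bin 433 (.bin 429 (.bin 427 (.tip (40047658632, 437471277)) (.bin 428 (.tip (40047658632, 437471373)) (.tip (40047658632, 538134669)))) (.bin 431 (.bin 430 (.tip (40047658632, 402969678)) (.tip (40047658632, 426016846))) (.bin 432 (.tip (40047658632, 538137742)) (.tip (40047658632, 437471405))))) (.bin 436 (.bin 434 (.tip (40047658632, 538134701)) (.bin 435 (.tip (40047658632, 436524110)) (.tip (40047658632, 459571278)))) (.bin 438 (.bin 437 (.tip (40047658632, 538134797)) (.tip (40047658632, 537187406))) (.bin 439 (.tip (40047658632, 560234574)) (.tip (40047658632, 459571374)))))) (.bin 447 (.bin 443 (.bin 441 (.tip (40047658632, 560234670)) (.bin 442 (.tip (40047658632, 437569709)) (.tip (40047658632, 538233005)))) (.bin 445 (.bin 444 (.tip (40047658632,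 404018350)) (.tip (40047658632, 437569710))) (.bin 446 (.tip (40047658632, 538233006)) (.tip (40047658632, 437572686))))) (.bin 451 (.bin 449 (.bin 448 (.tip (40047658632, 538235982)) (.tip (40047658632, 541381710))) (.bin 450 (.tip (40047658632, 437572782)) (.tip (40047658632, 538236078)))) (.bin 453 (.bin 452 (.tip (40047658632, 437572785)) (.tip (20422887048, 506745108))) (.bin 454 (.tip (20422887048, 645157140)) (.tip (20424722056, 645267732))))))))

def tC8 : BT (Nat × Nat) :=
  (.bin 483 (.bin 469 (.bin 462 (.bin 458 (.bin 456 (.tip (20472792712, 516214868)) (.bin 457 (.tip (30086661768, 782386324)) (.tip (20472792712, 513167444)))) (.bin 460 (.bin 459 (.tip (20474889864, 513167444)) (.tip (21496727176, 648204436))) (.bin 461 (.tip (20474889864, 382096468)) (.tip (21496727176, 648171700))))) (.bin 465 (.bin 463 (.tip (30086661768, 648171700)) (.bin 464 (.tip (30359193224, 114444564)) (.tip (30090757768, 114444564)))) (.bin 467 (.bin 466 (.tip (36562830984, 504578324)) (.tip (36529276552,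 504578324))) (.bin 468 (.tip (20472792712, 513069140)) (.tip (20472792712, 513036372)))))) (.bin 476 (.bin 472 (.bin 470 (.tip (20427081352, 115627284)) (.bin 471 (.tip (20472792712, 512020564)) (.tip (20423149192, 505729300)))) (.bin 474 (.bin 473 (.tip (37873550984, 236341524)) (.tip (37605115528, 236341524))) (.bin 475 (.tip (21534115464, 651362580)) (.tip (21500561032, 651362580))))) (.bin 479 (.bin 477 (.tip (21496727176, 648204468)) (.bin 478 (.tip (37602756232, 258229524)) (.tip (21496727176, 648302772)))) (.bin 481 (.bin 480 (.tip (21496628872, 648204564)) (.tip (21496727176, 648204564))) (.bin 482 (.tip (20424722056, 783679764)) (.tip (20424722056, 506855700))))))) (.bin 497 (.bin 490 (.bin 486 (.bin 484 (.tip (47430637192, 44255252)) (.bin 485 (.tip (47564854920, 44255252)) (.tip (21536048776, 486757460)))) (.bin 488 (.bin 487 (.tip (47564854920, 10700852)) (.tip (47430637192, 44222484))) (.bin 489 (.tip (47564854920, 44222484)) (.tip (21536048776, 486757428))))) (.bin 493 (.bin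 491 (.tip (47564854920, 10668084)) (.bin 492 (.tip (47430637192, 47400980)) (.tip (47564854920, 47400980)))) (.bin 495 (.bin 494 (.tip (21536048776, 486855764)) (.tip (47564854920, 13846580))) (.bin 496 (.tip (47430637192, 50546702)) (.tip (47564854920, 50546702)))))) (.bin 504 (.bin 500 (.bin 498 (.tip (21536048776, 480662612)) (.bin 499 (.tip (47564854920, 16992302)) (.tip (30086661768, 782386356)))) (.bin 502 (.bin 501 (.tip (20474889864, 513168468)) (.tip (30418015880, 209864750))) (.bin 503 (.tip (47299561096, 748897300)) (.tip (47564854920, 42158222))))) (.bin 508 (.bin 506 (.bin 505 (.tip (47564854920, 142821422)) (.tip (30418015880, 209864749))) (.bin 507 (.tip (47299561096, 748864532)) (.tip (47564854920, 42158221)))) (.bin 510 (.bin 509 (.tip (47564854920, 142821421)) (.tip (30418015880, 209867822))) (.bin 511 (.tip (47299561096, 752043028)) (.tip (47564854920, 42161294))))))))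

def tC9 : BT (Nat × Nat) :=
  (.bin 540 (.bin 526 (.bin 519 (.bin 515 (.bin 513 (.tip (47564854920, 142824494)) (.bin 514 (.tip (47564854920, 44222516)) (.tip (47564854920, 44255284)))) (.bin 517 (.bin 516 (.tip (47564854920, 42158126)) (.tip (30086661768, 648168628))) (.bin 518 (.tip (20474889864, 378950740)) (.tip (47430637192, 50546701))))) (.bin 522 (.bin 520 (.tip (47564854920, 50546701)) (.bin 521 (.tip (21536048776, 479614036)) (.tip (47564854920, 16992301)))) (.bin 524 (.bin 523 (.tip (47564854920, 50546734)) (.tip (30086563464, 782386452))) (.bin 525 (.tip (30086661768, 782386452)) (.tip (36529014408, 392347924)))))) (.bin 533 (.bin 529 (.bin 527 (.tip (20474889864, 513146964)) (.bin 528 (.tip (30086661768, 648167604)) (.tip (20426819208, 786727188)))) (.bin 531 (.bin 530 (.tip (20474889864, 377902164)) (.tip (20425246344, 371610900))) (.bin 532 (.tip (31485462152, 445794388)) (.tip (31217026696, 445794388))))) (.bin 536 (.bin 534 (.tip (31484937864, 445794388)) (.bin 535 (.tip (31216502408,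 445794388)) (.tip (47269152392, 44452020)))) (.bin 538 (.bin 537 (.tip (47537587848, 44452020)) (.tip (46195410568, 44452020))) (.bin 539 (.tip (46463846024, 44452020)) (.tip (47299561096, 748864788))))))) (.bin 554 (.bin 547 (.bin 543 (.bin 541 (.tip (30418015880, 218253357)) (.bin 542 (.tip (47564854920, 50546829)) (.tip (47564854920, 151210029)))) (.bin 545 (.bin 544 (.tip (47430637192, 42158094)) (.tip (47564854920, 42158094))) (.bin 546 (.tip (21536048776, 480400468)) (.tip (47564854920, 8603694))))) (.bin 550 (.bin 548 (.tip (47564854920, 42161198)) (.bin 549 (.tip (47299561096, 748897556)) (.tip (47564854920, 50546830)))) (.bin 552 (.bin 551 (.tip (30418015880, 218253358)) (.tip (47564854920, 151210030))) (.bin 553 (.tip (47564854920, 50546733)) (.tip (47564854920, 47401012)))))) (.bin 561 (.bin 557 (.bin 555 (.tip (40025228936, 437471508)) (.bin 556 (.tip (39756793480, 437471508)) (.tip (40058783368, 437471508)))) (.bin 559 (.bin 558 (.tip (39790347912, 437471508)) (.tip (30418015880,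 211961900))) (.bin 560 (.tip (47299561096, 748831828)) (.tip (47564854920, 44255372))))) (.bin 565 (.bin 563 (.bin 562 (.tip (47564854920, 144918572)) (.tip (47430637192, 50549774))) (.bin 564 (.tip (30418015880, 178407476)) (.tip (47564854920, 50549774)))) (.bin 567 (.bin 566 (.tip (21536048776, 581325908)) (.tip (47299561096, 715539540))) (.bin 568 (.tip (47564854920, 44222612)) (.tip (47564854920, 144885812))))))))

def tC10 : BT (Nat × Nat) :=
  (.bin 597 (.bin 583 (.bin 576 (.bin 572 (.bin 570 (.tip (47564854920, 16995374)) (.bin 571 (.tip (30086661768, 748831924)) (.tip (47266530952, 748831924)))) (.bin 574 (.bin 573 (.tip (37940631176, 202786957)) (.tip (40058754696, 538134541))) (.bin 575 (.tip (20474889864, 479614036)) (.tip (20479084168, 479614036))))) (.bin 579 (.bin 577 (.tip (30426273416, 215107628)) (.bin 578 (.tip (40058754696, 440617004)) (.tip (47299561096, 748831924)))) (.bin 581 (.bin 580 (.tip (47564854920, 47401100)) (.tip (30418015880, 215107628))) (.bin 582 (.tip (47564854920,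 148064300)) (.tip (47430637192, 42161166)))))) (.bin 590 (.bin 586 (.bin 584 (.tip (30418015880, 178407468)) (.bin 585 (.tip (47564854920, 42161166)) (.tip (21536048776, 581063764)))) (.bin 588 (.bin 587 (.tip (47299561096, 715277396)) (.tip (47564854920, 44222604))) (.bin 589 (.tip (47564854920, 144885804)) (.tip (47564854920, 8606766))))) (.bin 593 (.bin 591 (.tip (30418015880, 211961908)) (.bin 592 (.tip (47299561096, 749093972)) (.tip (47564854920, 44255380)))) (.bin 595 (.bin 594 (.tip (47564854920, 144918580)) (.tip (47564854920, 42158125))) (.bin 596 (.tip (47430637192, 42158093)) (.tip (47564854920, 42158093))))))) (.bin 611 (.bin 604 (.bin 600 (.bin 598 (.tip (21536048776, 479351892)) (.bin 599 (.tip (47564854920, 8603693)) (.tip (47430637192, 47400972)))) (.bin 602 (.bin 601 (.tip (47564854920, 47400972)) (.tip (47564854920, 13846572))) (.bin 603 (.tip (21536048776, 478467156)) (.tip (47564854920, 47401004))))) (.bin 607 (.bin 605 (.tip (47430637192, 44255244)) (.bin 606 (.tip (47564854920,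 44255244)) (.tip (21536048776, 478368852)))) (.bin 609 (.bin 608 (.tip (47564854920, 10700844)) (.tip (47564854920, 44255276))) (.bin 610 (.tip (47266432648, 748864788)) (.tip (47266530952, 748864788)))))) (.bin 618 (.bin 614 (.bin 612 (.tip (30426273416, 218253357)) (.bin 613 (.tip (40058754696, 541280301)) (.tip (20422887048, 783569172)))) (.bin 616 (.bin 615 (.tip (37940631176, 201738285)) (.tip (40058754696, 437471244))) (.bin 617 (.tip (20429440648, 472175892)) (.tip (20479084168, 478467156))))) (.bin 622 (.bin 620 (.bin 619 (.tip (47430637192, 44222476)) (.tip (47564854920, 44222476))) (.bin 621 (.tip (47564854920, 44222508)) (.tip (21536048776, 478368820)))) (.bin 624 (.bin 623 (.tip (47564854920, 10668076)) (.tip (47430637192, 47400977))) (.bin 625 (.tip (47564854920, 47400977)) (.tip (21536048776, 483710036))))))))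

def tC11 : BT (Nat × Nat) :=
  (.bin 654 (.bin 640 (.bin 633 (.bin 629 (.bin 627 (.tip (47564854920, 13846577)) (.bin 628 (.tip (30418015880, 215107636)) (.tip (46192789128, 748962996)))) (.bin 631 (.bin 630 (.tip (47266530952, 748962996)) (.tip (40058754696, 538134669))) (.bin 632 (.tip (30157837960, 215107632)) (.tip (30426273416, 215107632))))) (.bin 636 (.bin 634 (.tip (40058754696, 440617008)) (.bin 635 (.tip (47266530952, 748864692)) (.tip (40058754696, 538134573)))) (.bin 638 (.bin 637 (.tip (30426273416, 215107629)) (.tip (40058754696, 440617005))) (.bin 639 (.tip (20479084168, 482661460)) (.tip (47266530952, 748864660)))))) (.bin 647 (.bin 643 (.bin 641 (.tip (40058754696, 437471372)) (.bin 642 (.tip (37940631176, 205932589)) (.tip (30426273416, 214059053)))) (.bin 645 (.bin 644 (.tip (40058754696, 407062573)) (.tip (47299561096, 749094068))) (.bin 646 (.tip (47564854920, 47401108)) (.tip (47564854920, 148064308))))) (.bin 650 (.bin 648 (.tip (47430637192, 44255249)) (.bin 649 (.tip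 (47564854920, 44255249)) (.tip (21536048776, 483611732)))) (.bin 652 (.bin 651 (.tip (47564854920, 10700849)) (.tip (47430637192, 47400976))) (.bin 653 (.tip (47564854920, 47400976)) (.tip (21536048776, 482661460))))))) (.bin 668 (.bin 661 (.bin 657 (.bin 655 (.tip (47564854920, 13846576)) (.bin 656 (.tip (47564854920, 50549806)) (.tip (47430637192, 47400974)))) (.bin 659 (.bin 658 (.tip (47564854920, 47400974)) (.tip (21536048776, 480564308))) (.bin 660 (.tip (47564854920, 13846574)) (.tip (30418015880, 218256430))))) (.bin 664 (.bin 662 (.tip (47299561096, 752043284)) (.bin 663 (.tip (47564854920, 50549902)) (.tip (47564854920, 151213102)))) (.bin 666 (.bin 665 (.tip (47299561096, 748864660)) (.tip (47564854920, 46352525))) (.bin 667 (.tip (30418015880, 214059053)) (.tip (47564854920, 147015725)))))) (.bin 675 (.bin 671 (.bin 669 (.tip (47430637192, 44255248)) (.bin 670 (.tip (47564854920, 44255248)) (.tip (21536048776, 482563156)))) (.bin 673 (.bin 672 (.tip (47564854920, 10700848)) (.tip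 (47430637192, 44222481))) (.bin 674 (.tip (47564854920, 44222481)) (.tip (21536048776, 483611700))))) (.bin 679 (.bin 677 (.bin 676 (.tip (47564854920, 10668081)) (.tip (47430637192, 46352398))) (.bin 678 (.tip (47564854920, 46352398)) (.tip (21536048776, 480531540)))) (.bin 681 (.bin 680 (.tip (47564854920, 12797998)) (.tip (47299561096, 748897428))) (.bin 682 (.tip (47564854920, 46352526)) (.tip (30418015880, 214059054))))))))

def tC12 : BT (Nat × Nat) :=
  (.bin 711 (.bin 697 (.bin 690 (.bin 686 (.bin 684 (.tip (47564854920, 147015726)) (.bin 685 (.tip (37940631176, 202786861)) (.tip (40058754696, 437471245)))) (.bin 688 (.bin 687 (.tip (20479084168, 479515732)) (.tip (40058754696, 437471276))) (.bin 689 (.tip (30418015880, 210913326)) (.tip (47299561096, 748897332))))) (.bin 693 (.bin 691 (.tip (47564854920, 43206798)) (.bin 692 (.tip (47564854920, 143869998)) (.tip (47564854920, 46352430)))) (.bin 695 (.bin 694 (.tip (47564854920, 44255281)) (.tip (30418015880, 210913325))) (.bin 696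 (.tip (47299561096, 748864564)) (.tip (47564854920, 43206797)))))) (.bin 704 (.bin 700 (.bin 698 (.tip (47564854920, 143869997)) (.bin 699 (.tip (30418015880, 211961904)) (.tip (47299561096, 748962900)))) (.bin 702 (.bin 701 (.tip (47564854920, 44255376)) (.tip (47564854920, 144918576))) (.bin 703 (.tip (30418015880, 211961901)) (.tip (47299561096, 748864596))))) (.bin 707 (.bin 705 (.tip (47564854920, 44255373)) (.bin 706 (.tip (47564854920, 144918573)) (.tip (30418015880, 215107629)))) (.bin 709 (.bin 708 (.tip (47299561096, 748864692)) (.tip (47564854920, 47401101))) (.bin 710 (.tip (47564854920, 148064301)) (.tip (47430637192, 47400973))))))) (.bin 725 (.bin 718 (.bin 714 (.bin 712 (.tip (47564854920, 47400973)) (.bin 713 (.tip (21536048776, 479515732)) (.tip (47564854920, 13846573)))) (.bin 716 (.bin 715 (.tip (47564854920, 47401009)) (.tip (47564854920, 47401006))) (.bin 717 (.tip (40058754696, 437471277)) (.tip (47564854920, 47401008))))) (.bin 721 (.bin 719 (.tip (47299561096, 748962996))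 (.bin 720 (.tip (30418015880, 215107632)) (.tip (47564854920, 47401104)))) (.bin 723 (.bin 722 (.tip (47564854920, 148064304)) (.tip (47564854920, 44255280))) (.bin 724 (.tip (47564854920, 47401005)) (.tip (47430637192, 46355470)))))) (.bin 732 (.bin 728 (.bin 726 (.tip (30418015880, 178407472)) (.bin 727 (.tip (47564854920, 46355470)) (.tip (21536048776, 581194836)))) (.bin 730 (.bin 729 (.tip (47299561096, 715408468)) (.tip (47564854920, 44222608))) (.bin 731 (.tip (47564854920, 144885808)) (.tip (47564854920, 12801070))))) (.bin 736 (.bin 734 (.bin 733 (.tip (47430637192, 44255246)) (.tip (47564854920, 44255246))) (.bin 735 (.tip (21536048776, 480466004)) (.tip (47564854920, 10700846)))) (.bin 738 (.bin 737 (.tip (47430637192, 44222480)) (.tip (47564854920, 44222480))) (.bin 739 (.tip (21536048776, 482563124)) (.tip (47564854920, 10668080))))))))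

def tC13 : BT (Nat × Nat) :=
  (.bin 768 (.bin 754 (.bin 747 (.bin 743 (.bin 741 (.tip (47564854920, 44222513)) (.bin 742 (.tip (20479084168, 479482964)) (.tip (20479608456, 479482964)))) (.bin 745 (.bin 744 (.tip (40058754696, 436422700)) (.tip (37940631176, 202786829))) (.bin 746 (.tip (40058754696, 403916813)) (.tip (37806413448, 202786829))))) (.bin 750 (.bin 748 (.tip (47564854920, 12797997)) (.bin 749 (.tip (47430637192, 46352397)) (.tip (21536048776, 479482964)))) (.bin 752 (.bin 751 (.tip (47564854920, 46352397)) (.tip (47564854920, 44255278))) (.bin 753 (.tip (47430637192, 44255245)) (.tip (47564854920, 44255245)))))) (.bin 761 (.bin 757 (.bin 755 (.tip (30418015880, 215107630)) (.bin 756 (.tip (21536048776, 479417428)) (.tip (47564854920, 10700845)))) (.bin 759 (.bin 758 (.tip (47299561096, 748897460)) (.tip (47564854920, 47401102))) (.bin 760 (.tip (47564854920, 44255277)) (.tip (47564854920, 148064302))))) (.bin 764 (.bin 762 (.tip (30418015880, 211961902)) (.bin 763 (.tip (47299561096,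 748897364)) (.tip (47564854920, 44255374)))) (.bin 766 (.bin 765 (.tip (47564854920, 144918574)) (.tip (30418015880, 215107633))) (.bin 767 (.tip (47299561096, 748995764)) (.tip (47564854920, 47401105))))))) (.bin 782 (.bin 775 (.bin 771 (.bin 769 (.tip (47430637192, 43206670)) (.bin 770 (.tip (47564854920, 148064305)) (.tip (47564854920, 43206670)))) (.bin 773 (.bin 772 (.tip (21536048776, 480433236)) (.tip (47564854920, 9652270))) (.bin 774 (.tip (30418015880, 211961905)) (.tip (47299561096, 748995668))))) (.bin 778 (.bin 776 (.tip (47564854920, 44255377)) (.bin 777 (.tip (47564854920, 144918577)) (.tip (47564854920, 43206702)))) (.bin 780 (.bin 779 (.tip (47564854920, 46352429)) (.tip (47564854920, 44222512))) (.bin 781 (.tip (47564854920, 46355502)) (.tip (47430637192, 47404046)))))) (.bin 789 (.bin 785 (.bin 783 (.tip (30418015880, 178407473)) (.bin 784 (.tip (47564854920, 47404046)) (.tip (21536048776, 581227604)))) (.bin 787 (.bin 786 (.tip (47299561096, 715441236)) (.tip (47564854920,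 44222609))) (.bin 788 (.tip (47564854920, 144885809)) (.tip (47564854920, 13849646))))) (.bin 793 (.bin 791 (.bin 790 (.tip (47430637192, 43206669)) (.tip (47564854920, 43206669))) (.bin 792 (.tip (21536048776, 479384660)) (.tip (47564854920, 9652269)))) (.bin 795 (.bin 794 (.tip (47430637192, 43209742)) (.tip (30418015880, 178407469))) (.bin 796 (.tip (47564854920, 43209742)) (.tip (21536048776, 581096532))))))))

def tC14 : BT (Nat × Nat) :=
  (.bin 825 (.bin 811 (.bin 804 (.bin 800 (.bin 798 (.tip (47299561096, 715310164)) (.bin 799 (.tip (47564854920, 44222605)) (.tip (47564854920, 144885805)))) (.bin 802 (.bin 801 (.tip (47564854920, 9655342)) (.tip (30418015880, 214062126))) (.bin 803 (.tip (47299561096, 752043156)) (.tip (47564854920, 46355598))))) (.bin 807 (.bin 805 (.tip (47564854920, 147018798)) (.bin 806 (.tip (30418015880, 210916398)) (.tip (47299561096, 752043060)))) (.bin 809 (.bin 808 (.tip (47564854920, 43209870)) (.tip (47564854920, 143873070))) (.bin 810 (.tip (47564854920,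 43209774)) (.tip (47564854920, 43206701)))))) (.bin 818 (.bin 814 (.bin 812 (.tip (47430637192, 44258318)) (.bin 813 (.tip (30418015880, 178407470)) (.tip (47564854920, 44258318)))) (.bin 816 (.bin 815 (.tip (21536048776, 581129300)) (.tip (47299561096, 715342932))) (.bin 817 (.tip (47564854920, 44222606)) (.tip (47564854920, 144885806))))) (.bin 821 (.bin 819 (.tip (47564854920, 10703918)) (.bin 820 (.tip (47430637192, 44222478)) (.tip (47564854920, 44222478)))) (.bin 823 (.bin 822 (.tip (21536048776, 480465972)) (.tip (47564854920, 10668078))) (.bin 824 (.tip (47564854920, 47404078)) (.tip (47430637192, 44222477))))))) (.bin 839 (.bin 832 (.bin 828 (.bin 826 (.tip (47564854920, 44222477)) (.bin 827 (.tip (21536048776, 479417396)) (.tip (47564854920, 10668077)))) (.bin 830 (.bin 829 (.tip (30418015880, 215110702)) (.tip (47299561096, 752043188))) (.bin 831 (.tip (47564854920, 47404174)) (.tip (47564854920, 148067374))))) (.bin 835 (.bin 833 (.tip (47564854920, 44258350)) (.bin 834 (.tip (47564854920,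 44222510)) (.tip (47564854920, 44222509)))) (.bin 837 (.bin 836 (.tip (30418015880, 211964974)) (.tip (47299561096, 752043092))) (.bin 838 (.tip (47564854920, 44258446)) (.tip (47564854920, 144921646)))))) (.bin 846 (.bin 842 (.bin 840 (.tip (47430637192, 44225550)) (.bin 841 (.tip (30418015880, 177358894)) (.tip (47564854920, 44225550)))) (.bin 844 (.bin 843 (.tip (21536048776, 581129268)) (.tip (47299561096, 715342900))) (.bin 845 (.tip (47564854920, 43174030)) (.tip (47564854920, 143837230))))) (.bin 850 (.bin 848 (.bin 847 (.tip (47564854920, 10671150)) (.tip (47430637192, 44258321))) (.bin 849 (.tip (30418015880, 178410542)) (.tip (47564854920, 44258321)))) (.bin 852 (.bin 851 (.tip (21536048776, 584275028)) (.tip (47299561096, 718488660))) (.bin 853 (.tip (47564854920, 44225678)) (.tip (47564854920, 144888878))))))))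

def tC15 : BT (Nat × Nat) :=
  (.bin 879 (.bin 866 (.bin 860 (.bin 857 (.bin 855 (.tip (47564854920, 10703921)) (.bin 856 (.tip (47430637192, 43173902)) (.tip (47564854920, 43173902)))) (.bin 858 (.tip (21536048776, 480433204)) (.bin 859 (.tip (47564854920, 9619502)) (.tip (47430637192, 44225553))))) (.bin 863 (.bin 861 (.tip (30418015880, 177361966)) (.bin 862 (.tip (47564854920, 44225553)) (.tip (21536048776, 584274996)))) (.bin 864 (.tip (47299561096, 718488628)) (.bin 865 (.tip (47564854920, 43177102)) (.tip (47564854920, 143840302)))))) (.bin 872 (.bin 869 (.bin 867 (.tip (47564854920, 10671153)) (.bin 868 (.tip (30418015880, 211964977)) (.tip (21536048776, 581096500)))) (.bin 870 (.tip (47299561096, 752141396)) (.bin 871 (.tip (47564854920, 44258449)) (.tip (47430637192, 43176974))))) (.bin 875 (.bin 873 (.tip (47564854920, 144921649)) (.bin 874 (.tip (30418015880, 177358893)) (.tip (47564854920, 43176974)))) (.bin 877 (.bin 876 (.tip (47430637192, 47404049)) (.tip (47299561096, 715310132)))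 (.bin 878 (.tip (47564854920, 43174029)) (.tip (47564854920, 9622574))))))) (.bin 891 (.bin 885 (.bin 882 (.bin 880 (.tip (21536048776, 584373332)) (.bin 881 (.tip (47299561096, 718586964)) (.tip (47564854920, 44225681)))) (.bin 883 (.tip (47564854920, 143837229)) (.bin 884 (.tip (30418015880, 178410545)) (.tip (47564854920, 47404049))))) (.bin 888 (.bin 886 (.tip (47564854920, 144888881)) (.bin 887 (.tip (47564854920, 13849649)) (.tip (47430637192, 43173901)))) (.bin 889 (.tip (30418015880, 215110705)) (.bin 890 (.tip (21536048776, 479384628)) (.tip (47564854920, 9619501)))))) (.bin 897 (.bin 894 (.bin 892 (.tip (47299561096, 752141492)) (.bin 893 (.tip (47564854920, 47404177)) (.tip (47564854920, 43173901)))) (.bin 895 (.tip (47564854920, 148067377)) (.bin 896 (.tip (47564854920, 44225582)) (.tip (47564854920, 44258353))))) (.bin 900 (.bin 898 (.tip (47564854920, 43173934)) (.bin 899 (.tip (47564854920, 43177006)) (.tip (47564854920, 44225585)))) (.bin 902 (.bin 901 (.tip (47564854920, 47404081))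 (.tip (47564854920, 43173933))) (.bin 903 (.tip (46730069640, 55887021)) (.tip (22627096200, 445830193))))))))

def tC : BT (Nat × Nat) := (.bin 455 (.bin 227 (.bin 113 (.bin 56 tC0 tC1) (.bin 170 tC2 tC3)) (.bin 341 (.bin 284 tC4 tC5) (.bin 398 tC6 tC7))) (.bin 683 (.bin 569 (.bin 512 tC8 tC9) (.bin 626 tC10 tC11)) (.bin 797 (.bin 740 tC12 tC13) (.bin 854 tC14 tC15))))

def tE0 : BT (List Grp) :=
  (.bin 27 (.bin 13 (.bin 6 (.bin 2 (.bin 0 (.tip e0) (.bin 1 (.tip e1) (.tip e2))) (.bin 4 (.bin 3 (.tip e3) (.tip e4)) (.bin 5 (.tip e5) (.tip e6)))) (.bin 9 (.bin 7 (.tip e7) (.bin 8 (.tip e8) (.tip e9))) (.bin 11 (.bin 10 (.tip e10) (.tip e11)) (.bin 12 (.tip e12) (.tip e13))))) (.bin 20 (.bin 16 (.bin 14 (.tip e14) (.bin 15 (.tip e15) (.tip e16))) (.bin 18 (.bin 17 (.tip e17) (.tip e18)) (.bin 19 (.tip e19) (.tip e20)))) (.bin 23 (.bin 21 (.tip e21) (.bin 22 (.tip e22) (.tip e23))) (.bin 25 (.bin 24 (.tip e24) (.tip e25)) (.bin 26 (.tip e26) (.tip e27)))))) (.bin 41 (.bin 34 (.bin 30 (.bin 28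 (.tip e28) (.bin 29 (.tip e29) (.tip e30))) (.bin 32 (.bin 31 (.tip e31) (.tip e32)) (.bin 33 (.tip e33) (.tip e34)))) (.bin 37 (.bin 35 (.tip e35) (.bin 36 (.tip e36) (.tip e37))) (.bin 39 (.bin 38 (.tip e38) (.tip e39)) (.bin 40 (.tip e40) (.tip e41))))) (.bin 48 (.bin 44 (.bin 42 (.tip e42) (.bin 43 (.tip e43) (.tip e44))) (.bin 46 (.bin 45 (.tip e45) (.tip e46)) (.bin 47 (.tip e47) (.tip e48)))) (.bin 52 (.bin 50 (.bin 49 (.tip e49) (.tip e50)) (.bin 51 (.tip e51) (.tip e52))) (.bin 54 (.bin 53 (.tip e53) (.tip e54)) (.bin 55 (.tip e55) (.tip e56)))))))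

def tE1 : BT (List Grp) :=
  (.bin 84 (.bin 70 (.bin 63 (.bin 59 (.bin 57 (.tip e57) (.bin 58 (.tip e58) (.tip e59))) (.bin 61 (.bin 60 (.tip e60) (.tip e61)) (.bin 62 (.tip e62) (.tip e63)))) (.bin 66 (.bin 64 (.tip e64) (.bin 65 (.tip e65) (.tip e66))) (.bin 68 (.bin 67 (.tip e67) (.tip e68)) (.bin 69 (.tip e69) (.tip e70))))) (.bin 77 (.bin 73 (.bin 71 (.tip e71) (.bin 72 (.tip e72) (.tip e73))) (.bin 75 (.bin 74 (.tip e74) (.tip e75)) (.bin 76 (.tip e76) (.tip e77)))) (.bin 80 (.bin 78 (.tip e78) (.bin 79 (.tip e79) (.tip e80))) (.bin 82 (.bin 81 (.tip e81) (.tip e82)) (.bin 83 (.tip e83) (.tip e84)))))) (.bin 98 (.bin 91 (.bin 87 (.bin 85 (.tip e85) (.bin 86 (.tip e86) (.tip e87))) (.bin 89 (.bin 88 (.tip e88) (.tip e89)) (.bin 90 (.tip e90) (.tip e91)))) (.bin 94 (.bin 92 (.tip e92) (.bin 93 (.tip e93) (.tip e94))) (.bin 96 (.bin 95 (.tip e95) (.tip e96)) (.bin 97 (.tip e97) (.tip e98))))) (.bin 105 (.bin 101 (.bin 99 (.tip e99) (.bin 100 (.tip e100) (.tip e101))) (.bin 103 (.bin 102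 (.tip e102) (.tip e103)) (.bin 104 (.tip e104) (.tip e105)))) (.bin 109 (.bin 107 (.bin 106 (.tip e106) (.tip e107)) (.bin 108 (.tip e108) (.tip e109))) (.bin 111 (.bin 110 (.tip e110) (.tip e111)) (.bin 112 (.tip e112) (.tip e113)))))))

def tE2 : BT (List Grp) :=
  (.bin 141 (.bin 127 (.bin 120 (.bin 116 (.bin 114 (.tip e114) (.bin 115 (.tip e115) (.tip e116))) (.bin 118 (.bin 117 (.tip e117) (.tip e118)) (.bin 119 (.tip e119) (.tip e120)))) (.bin 123 (.bin 121 (.tip e121) (.bin 122 (.tip e122) (.tip e123))) (.bin 125 (.bin 124 (.tip e124) (.tip e125)) (.bin 126 (.tip e126) (.tip e127))))) (.bin 134 (.bin 130 (.bin 128 (.tip e128) (.bin 129 (.tip e129) (.tip e130))) (.bin 132 (.bin 131 (.tip e131) (.tip e132)) (.bin 133 (.tip e133) (.tip e134)))) (.bin 137 (.bin 135 (.tip e135) (.bin 136 (.tip e136) (.tip e137))) (.bin 139 (.bin 138 (.tip e138) (.tip e139)) (.bin 140 (.tip e140) (.tip e141)))))) (.bin 155 (.bin 148 (.bin 144 (.bin 142 (.tip e142) (.bin 143 (.tip e143) (.tip e144))) (.bin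 146 (.bin 145 (.tip e145) (.tip e146)) (.bin 147 (.tip e147) (.tip e148)))) (.bin 151 (.bin 149 (.tip e149) (.bin 150 (.tip e150) (.tip e151))) (.bin 153 (.bin 152 (.tip e152) (.tip e153)) (.bin 154 (.tip e154) (.tip e155))))) (.bin 162 (.bin 158 (.bin 156 (.tip e156) (.bin 157 (.tip e157) (.tip e158))) (.bin 160 (.bin 159 (.tip e159) (.tip e160)) (.bin 161 (.tip e161) (.tip e162)))) (.bin 166 (.bin 164 (.bin 163 (.tip e163) (.tip e164)) (.bin 165 (.tip e165) (.tip e166))) (.bin 168 (.bin 167 (.tip e167) (.tip e168)) (.bin 169 (.tip e169) (.tip e170)))))))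

def tE3 : BT (List Grp) :=
  (.bin 198 (.bin 184 (.bin 177 (.bin 173 (.bin 171 (.tip e171) (.bin 172 (.tip e172) (.tip e173))) (.bin 175 (.bin 174 (.tip e174) (.tip e175)) (.bin 176 (.tip e176) (.tip e177)))) (.bin 180 (.bin 178 (.tip e178) (.bin 179 (.tip e179) (.tip e180))) (.bin 182 (.bin 181 (.tip e181) (.tip e182)) (.bin 183 (.tip e183) (.tip e184))))) (.bin 191 (.bin 187 (.bin 185 (.tip e185) (.bin 186 (.tip e186) (.tip e187))) (.bin 189 (.bin 188 (.tip e188) (.tip e189)) (.bin 190 (.tip e190) (.tip e191)))) (.bin 194 (.bin 192 (.tip e192) (.bin 193 (.tip e193) (.tip e194))) (.bin 196 (.bin 195 (.tip e195) (.tip e196)) (.bin 197 (.tip e197) (.tip e198)))))) (.bin 212 (.bin 205 (.bin 201 (.bin 199 (.tip e199) (.bin 200 (.tip e200) (.tip e201))) (.bin 203 (.bin 202 (.tip e202) (.tip e203)) (.bin 204 (.tip e204) (.tip e205)))) (.bin 208 (.bin 206 (.tip e206) (.bin 207 (.tip e207) (.tip e208))) (.bin 210 (.bin 209 (.tip e209) (.tip e210)) (.bin 211 (.tip e211) (.tip e212))))) (.bin 219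 (.bin 215 (.bin 213 (.tip e213) (.bin 214 (.tip e214) (.tip e215))) (.bin 217 (.bin 216 (.tip e216) (.tip e217)) (.bin 218 (.tip e218) (.tip e219)))) (.bin 223 (.bin 221 (.bin 220 (.tip e220) (.tip e221)) (.bin 222 (.tip e222) (.tip e223))) (.bin 225 (.bin 224 (.tip e224) (.tip e225)) (.bin 226 (.tip e226) (.tip e227)))))))

def tE4 : BT (List Grp) :=
  (.bin 255 (.bin 241 (.bin 234 (.bin 230 (.bin 228 (.tip e228) (.bin 229 (.tip e229) (.tip e230))) (.bin 232 (.bin 231 (.tip e231) (.tip e232)) (.bin 233 (.tip e233) (.tip e234)))) (.bin 237 (.bin 235 (.tip e235) (.bin 236 (.tip e236) (.tip e237))) (.bin 239 (.bin 238 (.tip e238) (.tip e239)) (.bin 240 (.tip e240) (.tip e241))))) (.bin 248 (.bin 244 (.bin 242 (.tip e242) (.bin 243 (.tip e243) (.tip e244))) (.bin 246 (.bin 245 (.tip e245) (.tip e246)) (.bin 247 (.tip e247) (.tip e248)))) (.bin 251 (.bin 249 (.tip e249) (.bin 250 (.tip e250) (.tip e251))) (.bin 253 (.bin 252 (.tip e252) (.tip e253)) (.bin 254 (.tip e254) (.tip e255)))))) (.bin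 269 (.bin 262 (.bin 258 (.bin 256 (.tip e256) (.bin 257 (.tip e257) (.tip e258))) (.bin 260 (.bin 259 (.tip e259) (.tip e260)) (.bin 261 (.tip e261) (.tip e262)))) (.bin 265 (.bin 263 (.tip e263) (.bin 264 (.tip e264) (.tip e265))) (.bin 267 (.bin 266 (.tip e266) (.tip e267)) (.bin 268 (.tip e268) (.tip e269))))) (.bin 276 (.bin 272 (.bin 270 (.tip e270) (.bin 271 (.tip e271) (.tip e272))) (.bin 274 (.bin 273 (.tip e273) (.tip e274)) (.bin 275 (.tip e275) (.tip e276)))) (.bin 280 (.bin 278 (.bin 277 (.tip e277) (.tip e278)) (.bin 279 (.tip e279) (.tip e280))) (.bin 282 (.bin 281 (.tip e281) (.tip e282)) (.bin 283 (.tip e283) (.tip e284)))))))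

def tE5 : BT (List Grp) :=
  (.bin 312 (.bin 298 (.bin 291 (.bin 287 (.bin 285 (.tip e285) (.bin 286 (.tip e286) (.tip e287))) (.bin 289 (.bin 288 (.tip e288) (.tip e289)) (.bin 290 (.tip e290) (.tip e291)))) (.bin 294 (.bin 292 (.tip e292) (.bin 293 (.tip e293) (.tip e294))) (.bin 296 (.bin 295 (.tip e295) (.tip e296)) (.bin 297 (.tip e297) (.tip e298))))) (.bin 305 (.bin 301 (.bin 299 (.tip e299) (.bin 300 (.tip e300) (.tip e301))) (.bin 303 (.bin 302 (.tip e302) (.tip e303)) (.bin 304 (.tip e304) (.tip e305)))) (.bin 308 (.bin 306 (.tip e306) (.bin 307 (.tip e307) (.tip e308))) (.bin 310 (.bin 309 (.tip e309) (.tip e310)) (.bin 311 (.tip e311) (.tip e312)))))) (.bin 326 (.bin 319 (.bin 315 (.bin 313 (.tip e313) (.bin 314 (.tip e314) (.tip e315))) (.bin 317 (.bin 316 (.tip e316) (.tip e317)) (.bin 318 (.tip e318) (.tip e319)))) (.bin 322 (.bin 320 (.tip e320) (.bin 321 (.tip e321) (.tip e322))) (.bin 324 (.bin 323 (.tip e323) (.tip e324)) (.bin 325 (.tip e325) (.tip e326))))) (.bin 333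 (.bin 329 (.bin 327 (.tip e327) (.bin 328 (.tip e328) (.tip e329))) (.bin 331 (.bin 330 (.tip e330) (.tip e331)) (.bin 332 (.tip e332) (.tip e333)))) (.bin 337 (.bin 335 (.bin 334 (.tip e334) (.tip e335)) (.bin 336 (.tip e336) (.tip e337))) (.bin 339 (.bin 338 (.tip e338) (.tip e339)) (.bin 340 (.tip e340) (.tip e341)))))))

def tE6 : BT (List Grp) :=
  (.bin 369 (.bin 355 (.bin 348 (.bin 344 (.bin 342 (.tip e342) (.bin 343 (.tip e343) (.tip e344))) (.bin 346 (.bin 345 (.tip e345) (.tip e346)) (.bin 347 (.tip e347) (.tip e348)))) (.bin 351 (.bin 349 (.tip e349) (.bin 350 (.tip e350) (.tip e351))) (.bin 353 (.bin 352 (.tip e352) (.tip e353)) (.bin 354 (.tip e354) (.tip e355))))) (.bin 362 (.bin 358 (.bin 356 (.tip e356) (.bin 357 (.tip e357) (.tip e358))) (.bin 360 (.bin 359 (.tip e359) (.tip e360)) (.bin 361 (.tip e361) (.tip e362)))) (.bin 365 (.bin 363 (.tip e363) (.bin 364 (.tip e364) (.tip e365))) (.bin 367 (.bin 366 (.tip e366) (.tip e367)) (.bin 368 (.tip e368) (.tip e369)))))) (.bin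 383 (.bin 376 (.bin 372 (.bin 370 (.tip e370) (.bin 371 (.tip e371) (.tip e372))) (.bin 374 (.bin 373 (.tip e373) (.tip e374)) (.bin 375 (.tip e375) (.tip e376)))) (.bin 379 (.bin 377 (.tip e377) (.bin 378 (.tip e378) (.tip e379))) (.bin 381 (.bin 380 (.tip e380) (.tip e381)) (.bin 382 (.tip e382) (.tip e383))))) (.bin 390 (.bin 386 (.bin 384 (.tip e384) (.bin 385 (.tip e385) (.tip e386))) (.bin 388 (.bin 387 (.tip e387) (.tip e388)) (.bin 389 (.tip e389) (.tip e390)))) (.bin 394 (.bin 392 (.bin 391 (.tip e391) (.tip e392)) (.bin 393 (.tip e393) (.tip e394))) (.bin 396 (.bin 395 (.tip e395) (.tip e396)) (.bin 397 (.tip e397) (.tip e398)))))))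

def tE7 : BT (List Grp) :=
  (.bin 426 (.bin 412 (.bin 405 (.bin 401 (.bin 399 (.tip e399) (.bin 400 (.tip e400) (.tip e401))) (.bin 403 (.bin 402 (.tip e402) (.tip e403)) (.bin 404 (.tip e404) (.tip e405)))) (.bin 408 (.bin 406 (.tip e406) (.bin 407 (.tip e407) (.tip e408))) (.bin 410 (.bin 409 (.tip e409) (.tip e410)) (.bin 411 (.tip e411) (.tip e412))))) (.bin 419 (.bin 415 (.bin 413 (.tip e413) (.bin 414 (.tip e414) (.tip e415))) (.bin 417 (.bin 416 (.tip e416) (.tip e417)) (.bin 418 (.tip e418) (.tip e419)))) (.bin 422 (.bin 420 (.tip e420) (.bin 421 (.tip e421) (.tip e422))) (.bin 424 (.bin 423 (.tip e423) (.tip e424)) (.bin 425 (.tip e425) (.tip e426)))))) (.bin 440 (.bin 433 (.bin 429 (.bin 427 (.tip e427) (.bin 428 (.tip e428) (.tip e429))) (.bin 431 (.bin 430 (.tip e430) (.tip e431)) (.bin 432 (.tip e432) (.tip e433)))) (.bin 436 (.bin 434 (.tip e434) (.bin 435 (.tip e435) (.tip e436))) (.bin 438 (.bin 437 (.tip e437) (.tip e438)) (.bin 439 (.tip e439) (.tip e440))))) (.bin 447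 (.bin 443 (.bin 441 (.tip e441) (.bin 442 (.tip e442) (.tip e443))) (.bin 445 (.bin 444 (.tip e444) (.tip e445)) (.bin 446 (.tip e446) (.tip e447)))) (.bin 451 (.bin 449 (.bin 448 (.tip e448) (.tip e449)) (.bin 450 (.tip e450) (.tip e451))) (.bin 453 (.bin 452 (.tip e452) (.tip e453)) (.bin 454 (.tip e454) (.tip e455)))))))

def tE8 : BT (List Grp) :=
  (.bin 483 (.bin 469 (.bin 462 (.bin 458 (.bin 456 (.tip e456) (.bin 457 (.tip e457) (.tip e458))) (.bin 460 (.bin 459 (.tip e459) (.tip e460)) (.bin 461 (.tip e461) (.tip e462)))) (.bin 465 (.bin 463 (.tip e463) (.bin 464 (.tip e464) (.tip e465))) (.bin 467 (.bin 466 (.tip e466) (.tip e467)) (.bin 468 (.tip e468) (.tip e469))))) (.bin 476 (.bin 472 (.bin 470 (.tip e470) (.bin 471 (.tip e471) (.tip e472))) (.bin 474 (.bin 473 (.tip e473) (.tip e474)) (.bin 475 (.tip e475) (.tip e476)))) (.bin 479 (.bin 477 (.tip e477) (.bin 478 (.tip e478) (.tip e479))) (.bin 481 (.bin 480 (.tip e480) (.tip e481)) (.bin 482 (.tip e482) (.tip e483)))))) (.bin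 497 (.bin 490 (.bin 486 (.bin 484 (.tip e484) (.bin 485 (.tip e485) (.tip e486))) (.bin 488 (.bin 487 (.tip e487) (.tip e488)) (.bin 489 (.tip e489) (.tip e490)))) (.bin 493 (.bin 491 (.tip e491) (.bin 492 (.tip e492) (.tip e493))) (.bin 495 (.bin 494 (.tip e494) (.tip e495)) (.bin 496 (.tip e496) (.tip e497))))) (.bin 504 (.bin 500 (.bin 498 (.tip e498) (.bin 499 (.tip e499) (.tip e500))) (.bin 502 (.bin 501 (.tip e501) (.tip e502)) (.bin 503 (.tip e503) (.tip e504)))) (.bin 508 (.bin 506 (.bin 505 (.tip e505) (.tip e506)) (.bin 507 (.tip e507) (.tip e508))) (.bin 510 (.bin 509 (.tip e509) (.tip e510)) (.bin 511 (.tip e511) (.tip e512)))))))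

def tE9 : BT (List Grp) :=
  (.bin 540 (.bin 526 (.bin 519 (.bin 515 (.bin 513 (.tip e513) (.bin 514 (.tip e514) (.tip e515))) (.bin 517 (.bin 516 (.tip e516) (.tip e517)) (.bin 518 (.tip e518) (.tip e519)))) (.bin 522 (.bin 520 (.tip e520) (.bin 521 (.tip e521) (.tip e522))) (.bin 524 (.bin 523 (.tip e523) (.tip e524)) (.bin 525 (.tip e525) (.tip e526))))) (.bin 533 (.bin 529 (.bin 527 (.tip e527) (.bin 528 (.tip e528) (.tip e529))) (.bin 531 (.bin 530 (.tip e530) (.tip e531)) (.bin 532 (.tip e532) (.tip e533)))) (.bin 536 (.bin 534 (.tip e534) (.bin 535 (.tip e535) (.tip e536))) (.bin 538 (.bin 537 (.tip e537) (.tip e538)) (.bin 539 (.tip e539) (.tip e540)))))) (.bin 554 (.bin 547 (.bin 543 (.bin 541 (.tip e541) (.bin 542 (.tip e542) (.tip e543))) (.bin 545 (.bin 544 (.tip e544) (.tip e545)) (.bin 546 (.tip e546) (.tip e547)))) (.bin 550 (.bin 548 (.tip e548) (.bin 549 (.tip e549) (.tip e550))) (.bin 552 (.bin 551 (.tip e551) (.tip e552)) (.bin 553 (.tip e553) (.tip e554))))) (.bin 561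 (.bin 557 (.bin 555 (.tip e555) (.bin 556 (.tip e556) (.tip e557))) (.bin 559 (.bin 558 (.tip e558) (.tip e559)) (.bin 560 (.tip e560) (.tip e561)))) (.bin 565 (.bin 563 (.bin 562 (.tip e562) (.tip e563)) (.bin 564 (.tip e564) (.tip e565))) (.bin 567 (.bin 566 (.tip e566) (.tip e567)) (.bin 568 (.tip e568) (.tip e569)))))))

def tE10 : BT (List Grp) :=
  (.bin 597 (.bin 583 (.bin 576 (.bin 572 (.bin 570 (.tip e570) (.bin 571 (.tip e571) (.tip e572))) (.bin 574 (.bin 573 (.tip e573) (.tip e574)) (.bin 575 (.tip e575) (.tip e576)))) (.bin 579 (.bin 577 (.tip e577) (.bin 578 (.tip e578) (.tip e579))) (.bin 581 (.bin 580 (.tip e580) (.tip e581)) (.bin 582 (.tip e582) (.tip e583))))) (.bin 590 (.bin 586 (.bin 584 (.tip e584) (.bin 585 (.tip e585) (.tip e586))) (.bin 588 (.bin 587 (.tip e587) (.tip e588)) (.bin 589 (.tip e589) (.tip e590)))) (.bin 593 (.bin 591 (.tip e591) (.bin 592 (.tip e592) (.tip e593))) (.bin 595 (.bin 594 (.tip e594) (.tip e595)) (.bin 596 (.tip e596) (.tip e597)))))) (.bin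 611 (.bin 604 (.bin 600 (.bin 598 (.tip e598) (.bin 599 (.tip e599) (.tip e600))) (.bin 602 (.bin 601 (.tip e601) (.tip e602)) (.bin 603 (.tip e603) (.tip e604)))) (.bin 607 (.bin 605 (.tip e605) (.bin 606 (.tip e606) (.tip e607))) (.bin 609 (.bin 608 (.tip e608) (.tip e609)) (.bin 610 (.tip e610) (.tip e611))))) (.bin 618 (.bin 614 (.bin 612 (.tip e612) (.bin 613 (.tip e613) (.tip e614))) (.bin 616 (.bin 615 (.tip e615) (.tip e616)) (.bin 617 (.tip e617) (.tip e618)))) (.bin 622 (.bin 620 (.bin 619 (.tip e619) (.tip e620)) (.bin 621 (.tip e621) (.tip e622))) (.bin 624 (.bin 623 (.tip e623) (.tip e624)) (.bin 625 (.tip e625) (.tip e626)))))))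

def tE11 : BT (List Grp) :=
  (.bin 654 (.bin 640 (.bin 633 (.bin 629 (.bin 627 (.tip e627) (.bin 628 (.tip e628) (.tip e629))) (.bin 631 (.bin 630 (.tip e630) (.tip e631)) (.bin 632 (.tip e632) (.tip e633)))) (.bin 636 (.bin 634 (.tip e634) (.bin 635 (.tip e635) (.tip e636))) (.bin 638 (.bin 637 (.tip e637) (.tip e638)) (.bin 639 (.tip e639) (.tip e640))))) (.bin 647 (.bin 643 (.bin 641 (.tip e641) (.bin 642 (.tip e642) (.tip e643))) (.bin 645 (.bin 644 (.tip e644) (.tip e645)) (.bin 646 (.tip e646) (.tip e647)))) (.bin 650 (.bin 648 (.tip e648) (.bin 649 (.tip e649) (.tip e650))) (.bin 652 (.bin 651 (.tip e651) (.tip e652)) (.bin 653 (.tip e653) (.tip e654)))))) (.bin 668 (.bin 661 (.bin 657 (.bin 655 (.tip e655) (.bin 656 (.tip e656) (.tip e657))) (.bin 659 (.bin 658 (.tip e658) (.tip e659)) (.bin 660 (.tip e660) (.tip e661)))) (.bin 664 (.bin 662 (.tip e662) (.bin 663 (.tip e663) (.tip e664))) (.bin 666 (.bin 665 (.tip e665) (.tip e666)) (.bin 667 (.tip e667) (.tip e668))))) (.bin 675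 (.bin 671 (.bin 669 (.tip e669) (.bin 670 (.tip e670) (.tip e671))) (.bin 673 (.bin 672 (.tip e672) (.tip e673)) (.bin 674 (.tip e674) (.tip e675)))) (.bin 679 (.bin 677 (.bin 676 (.tip e676) (.tip e677)) (.bin 678 (.tip e678) (.tip e679))) (.bin 681 (.bin 680 (.tip e680) (.tip e681)) (.bin 682 (.tip e682) (.tip e683)))))))

def tE12 : BT (List Grp) :=
  (.bin 711 (.bin 697 (.bin 690 (.bin 686 (.bin 684 (.tip e684) (.bin 685 (.tip e685) (.tip e686))) (.bin 688 (.bin 687 (.tip e687) (.tip e688)) (.bin 689 (.tip e689) (.tip e690)))) (.bin 693 (.bin 691 (.tip e691) (.bin 692 (.tip e692) (.tip e693))) (.bin 695 (.bin 694 (.tip e694) (.tip e695)) (.bin 696 (.tip e696) (.tip e697))))) (.bin 704 (.bin 700 (.bin 698 (.tip e698) (.bin 699 (.tip e699) (.tip e700))) (.bin 702 (.bin 701 (.tip e701) (.tip e702)) (.bin 703 (.tip e703) (.tip e704)))) (.bin 707 (.bin 705 (.tip e705) (.bin 706 (.tip e706) (.tip e707))) (.bin 709 (.bin 708 (.tip e708) (.tip e709)) (.bin 710 (.tip e710) (.tip e711)))))) (.bin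 725 (.bin 718 (.bin 714 (.bin 712 (.tip e712) (.bin 713 (.tip e713) (.tip e714))) (.bin 716 (.bin 715 (.tip e715) (.tip e716)) (.bin 717 (.tip e717) (.tip e718)))) (.bin 721 (.bin 719 (.tip e719) (.bin 720 (.tip e720) (.tip e721))) (.bin 723 (.bin 722 (.tip e722) (.tip e723)) (.bin 724 (.tip e724) (.tip e725))))) (.bin 732 (.bin 728 (.bin 726 (.tip e726) (.bin 727 (.tip e727) (.tip e728))) (.bin 730 (.bin 729 (.tip e729) (.tip e730)) (.bin 731 (.tip e731) (.tip e732)))) (.bin 736 (.bin 734 (.bin 733 (.tip e733) (.tip e734)) (.bin 735 (.tip e735) (.tip e736))) (.bin 738 (.bin 737 (.tip e737) (.tip e738)) (.bin 739 (.tip e739) (.tip e740)))))))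

def tE13 : BT (List Grp) :=
  (.bin 768 (.bin 754 (.bin 747 (.bin 743 (.bin 741 (.tip e741) (.bin 742 (.tip e742) (.tip e743))) (.bin 745 (.bin 744 (.tip e744) (.tip e745)) (.bin 746 (.tip e746) (.tip e747)))) (.bin 750 (.bin 748 (.tip e748) (.bin 749 (.tip e749) (.tip e750))) (.bin 752 (.bin 751 (.tip e751) (.tip e752)) (.bin 753 (.tip e753) (.tip e754))))) (.bin 761 (.bin 757 (.bin 755 (.tip e755) (.bin 756 (.tip e756) (.tip e757))) (.bin 759 (.bin 758 (.tip e758) (.tip e759)) (.bin 760 (.tip e760) (.tip e761)))) (.bin 764 (.bin 762 (.tip e762) (.bin 763 (.tip e763) (.tip e764))) (.bin 766 (.bin 765 (.tip e765) (.tip e766)) (.bin 767 (.tip e767) (.tip e768)))))) (.bin 782 (.bin 775 (.bin 771 (.bin 769 (.tip e769) (.bin 770 (.tip e770) (.tip e771))) (.bin 773 (.bin 772 (.tip e772) (.tip e773)) (.bin 774 (.tip e774) (.tip e775)))) (.bin 778 (.bin 776 (.tip e776) (.bin 777 (.tip e777) (.tip e778))) (.bin 780 (.bin 779 (.tip e779) (.tip e780)) (.bin 781 (.tip e781) (.tip e782))))) (.bin 789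 (.bin 785 (.bin 783 (.tip e783) (.bin 784 (.tip e784) (.tip e785))) (.bin 787 (.bin 786 (.tip e786) (.tip e787)) (.bin 788 (.tip e788) (.tip e789)))) (.bin 793 (.bin 791 (.bin 790 (.tip e790) (.tip e791)) (.bin 792 (.tip e792) (.tip e793))) (.bin 795 (.bin 794 (.tip e794) (.tip e795)) (.bin 796 (.tip e796) (.tip e797)))))))

def tE14 : BT (List Grp) :=
  (.bin 825 (.bin 811 (.bin 804 (.bin 800 (.bin 798 (.tip e798) (.bin 799 (.tip e799) (.tip e800))) (.bin 802 (.bin 801 (.tip e801) (.tip e802)) (.bin 803 (.tip e803) (.tip e804)))) (.bin 807 (.bin 805 (.tip e805) (.bin 806 (.tip e806) (.tip e807))) (.bin 809 (.bin 808 (.tip e808) (.tip e809)) (.bin 810 (.tip e810) (.tip e811))))) (.bin 818 (.bin 814 (.bin 812 (.tip e812) (.bin 813 (.tip e813) (.tip e814))) (.bin 816 (.bin 815 (.tip e815) (.tip e816)) (.bin 817 (.tip e817) (.tip e818)))) (.bin 821 (.bin 819 (.tip e819) (.bin 820 (.tip e820) (.tip e821))) (.bin 823 (.bin 822 (.tip e822) (.tip e823)) (.bin 824 (.tip e824) (.tip e825)))))) (.bin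 839 (.bin 832 (.bin 828 (.bin 826 (.tip e826) (.bin 827 (.tip e827) (.tip e828))) (.bin 830 (.bin 829 (.tip e829) (.tip e830)) (.bin 831 (.tip e831) (.tip e832)))) (.bin 835 (.bin 833 (.tip e833) (.bin 834 (.tip e834) (.tip e835))) (.bin 837 (.bin 836 (.tip e836) (.tip e837)) (.bin 838 (.tip e838) (.tip e839))))) (.bin 846 (.bin 842 (.bin 840 (.tip e840) (.bin 841 (.tip e841) (.tip e842))) (.bin 844 (.bin 843 (.tip e843) (.tip e844)) (.bin 845 (.tip e845) (.tip e846)))) (.bin 850 (.bin 848 (.bin 847 (.tip e847) (.tip e848)) (.bin 849 (.tip e849) (.tip e850))) (.bin 852 (.bin 851 (.tip e851) (.tip e852)) (.bin 853 (.tip e853) (.tip e854)))))))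

def tE15 : BT (List Grp) :=
  (.bin 879 (.bin 866 (.bin 860 (.bin 857 (.bin 855 (.tip e855) (.bin 856 (.tip e856) (.tip e857))) (.bin 858 (.tip e858) (.bin 859 (.tip e859) (.tip e860)))) (.bin 863 (.bin 861 (.tip e861) (.bin 862 (.tip e862) (.tip e863))) (.bin 864 (.tip e864) (.bin 865 (.tip e865) (.tip e866))))) (.bin 872 (.bin 869 (.bin 867 (.tip e867) (.bin 868 (.tip e868) (.tip e869))) (.bin 870 (.tip e870) (.bin 871 (.tip e871) (.tip e872)))) (.bin 875 (.bin 873 (.tip e873) (.bin 874 (.tip e874) (.tip e875))) (.bin 877 (.bin 876 (.tip e876) (.tip e877)) (.bin 878 (.tip e878) (.tip e879)))))) (.bin 891 (.bin 885 (.bin 882 (.bin 880 (.tip e880) (.bin 881 (.tip e881) (.tip e882))) (.bin 883 (.tip e883) (.bin 884 (.tip e884) (.tip e885)))) (.bin 888 (.bin 886 (.tip e886) (.bin 887 (.tip e887) (.tip e888))) (.bin 889 (.tip e889) (.bin 890 (.tip e890) (.tip e891))))) (.bin 897 (.bin 894 (.bin 892 (.tip e892) (.bin 893 (.tip e893) (.tip e894))) (.bin 895 (.tip e895) (.bin 896 (.tip e896) (.tip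 e897)))) (.bin 900 (.bin 898 (.tip e898) (.bin 899 (.tip e899) (.tip e900))) (.bin 902 (.bin 901 (.tip e901) (.tip e902)) (.bin 903 (.tip e903) (.tip e904)))))))

def tE : BT (List Grp) := (.bin 455 (.bin 227 (.bin 113 (.bin 56 tE0 tE1) (.bin 170 tE2 tE3)) (.bin 341 (.bin 284 tE4 tE5) (.bin 398 tE6 tE7))) (.bin 683 (.bin 569 (.bin 512 tE8 tE9) (.bin 626 tE10 tE11)) (.bin 797 (.bin 740 tE12 tE13) (.bin 854 tE14 tE15))))

def tN0 : BT (List Node) :=
  (.bin 27 (.bin 13 (.bin 6 (.bin 2 (.bin 0 (.tip n0) (.bin 1 (.tip n1) (.tip n2))) (.bin 4 (.bin 3 (.tip n3) (.tip n4)) (.bin 5 (.tip n5) (.tip n6)))) (.bin 9 (.bin 7 (.tip n7) (.bin 8 (.tip n8) (.tip n9))) (.bin 11 (.bin 10 (.tip n10) (.tip n11)) (.bin 12 (.tip n12) (.tip n13))))) (.bin 20 (.bin 16 (.bin 14 (.tip n14) (.bin 15 (.tip n15) (.tip n16))) (.bin 18 (.bin 17 (.tip n17) (.tip n18)) (.bin 19 (.tip n19) (.tip n20)))) (.bin 23 (.bin 21 (.tip n21) (.bin 22 (.tip n22) (.tip n23))) (.bin 25 (.bin 24 (.tip n24) (.tip n25)) (.bin 26 (.tip n26)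 (.tip n27)))))) (.bin 41 (.bin 34 (.bin 30 (.bin 28 (.tip n28) (.bin 29 (.tip n29) (.tip n30))) (.bin 32 (.bin 31 (.tip n31) (.tip n32)) (.bin 33 (.tip n33) (.tip n34)))) (.bin 37 (.bin 35 (.tip n35) (.bin 36 (.tip n36) (.tip n37))) (.bin 39 (.bin 38 (.tip n38) (.tip n39)) (.bin 40 (.tip n40) (.tip n41))))) (.bin 48 (.bin 44 (.bin 42 (.tip n42) (.bin 43 (.tip n43) (.tip n44))) (.bin 46 (.bin 45 (.tip n45) (.tip n46)) (.bin 47 (.tip n47) (.tip n48)))) (.bin 52 (.bin 50 (.bin 49 (.tip n49) (.tip n50)) (.bin 51 (.tip n51) (.tip n52))) (.bin 54 (.bin 53 (.tip n53) (.tip n54)) (.bin 55 (.tip n55) (.tip n56)))))))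

def tN1 : BT (List Node) :=
  (.bin 84 (.bin 70 (.bin 63 (.bin 59 (.bin 57 (.tip n57) (.bin 58 (.tip n58) (.tip n59))) (.bin 61 (.bin 60 (.tip n60) (.tip n61)) (.bin 62 (.tip n62) (.tip n63)))) (.bin 66 (.bin 64 (.tip n64) (.bin 65 (.tip n65) (.tip n66))) (.bin 68 (.bin 67 (.tip n67) (.tip n68)) (.bin 69 (.tip n69) (.tip n70))))) (.bin 77 (.bin 73 (.bin 71 (.tip n71) (.bin 72 (.tip n72) (.tip n73))) (.bin 75 (.bin 74 (.tip n74) (.tip n75)) (.bin 76 (.tip n76) (.tip n77)))) (.bin 80 (.bin 78 (.tip n78) (.bin 79 (.tip n79) (.tip n80))) (.bin 82 (.bin 81 (.tip n81) (.tip n82)) (.bin 83 (.tip n83) (.tip n84)))))) (.bin 98 (.bin 91 (.bin 87 (.bin 85 (.tip n85) (.bin 86 (.tip n86) (.tip n87))) (.bin 89 (.bin 88 (.tip n88) (.tip n89)) (.bin 90 (.tip n90) (.tip n91)))) (.bin 94 (.bin 92 (.tip n92) (.bin 93 (.tip n93) (.tip n94))) (.bin 96 (.bin 95 (.tip n95) (.tip n96)) (.bin 97 (.tip n97) (.tip n98))))) (.bin 105 (.bin 101 (.bin 99 (.tip n99) (.bin 100 (.tip n100) (.tip n101))) (.bin 103 (.bin 102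 (.tip n102) (.tip n103)) (.bin 104 (.tip n104) (.tip n105)))) (.bin 109 (.bin 107 (.bin 106 (.tip n106) (.tip n107)) (.bin 108 (.tip n108) (.tip n109))) (.bin 111 (.bin 110 (.tip n110) (.tip n111)) (.bin 112 (.tip n112) (.tip n113)))))))

def tN2 : BT (List Node) :=
  (.bin 141 (.bin 127 (.bin 120 (.bin 116 (.bin 114 (.tip n114) (.bin 115 (.tip n115) (.tip n116))) (.bin 118 (.bin 117 (.tip n117) (.tip n118)) (.bin 119 (.tip n119) (.tip n120)))) (.bin 123 (.bin 121 (.tip n121) (.bin 122 (.tip n122) (.tip n123))) (.bin 125 (.bin 124 (.tip n124) (.tip n125)) (.bin 126 (.tip n126) (.tip n127))))) (.bin 134 (.bin 130 (.bin 128 (.tip n128) (.bin 129 (.tip n129) (.tip n130))) (.bin 132 (.bin 131 (.tip n131) (.tip n132)) (.bin 133 (.tip n133) (.tip n134)))) (.bin 137 (.bin 135 (.tip n135) (.bin 136 (.tip n136) (.tip n137))) (.bin 139 (.bin 138 (.tip n138) (.tip n139)) (.bin 140 (.tip n140) (.tip n141)))))) (.bin 155 (.bin 148 (.bin 144 (.bin 142 (.tip n142) (.bin 143 (.tip n143) (.tip n144))) (.bin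 146 (.bin 145 (.tip n145) (.tip n146)) (.bin 147 (.tip n147) (.tip n148)))) (.bin 151 (.bin 149 (.tip n149) (.bin 150 (.tip n150) (.tip n151))) (.bin 153 (.bin 152 (.tip n152) (.tip n153)) (.bin 154 (.tip n154) (.tip n155))))) (.bin 162 (.bin 158 (.bin 156 (.tip n156) (.bin 157 (.tip n157) (.tip n158))) (.bin 160 (.bin 159 (.tip n159) (.tip n160)) (.bin 161 (.tip n161) (.tip n162)))) (.bin 166 (.bin 164 (.bin 163 (.tip n163) (.tip n164)) (.bin 165 (.tip n165) (.tip n166))) (.bin 168 (.bin 167 (.tip n167) (.tip n168)) (.bin 169 (.tip n169) (.tip n170)))))))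

def tN3 : BT (List Node) :=
  (.bin 198 (.bin 184 (.bin 177 (.bin 173 (.bin 171 (.tip n171) (.bin 172 (.tip n172) (.tip n173))) (.bin 175 (.bin 174 (.tip n174) (.tip n175)) (.bin 176 (.tip n176) (.tip n177)))) (.bin 180 (.bin 178 (.tip n178) (.bin 179 (.tip n179) (.tip n180))) (.bin 182 (.bin 181 (.tip n181) (.tip n182)) (.bin 183 (.tip n183) (.tip n184))))) (.bin 191 (.bin 187 (.bin 185 (.tip n185) (.bin 186 (.tip n186) (.tip n187))) (.bin 189 (.bin 188 (.tip n188) (.tip n189)) (.bin 190 (.tip n190) (.tip n191)))) (.bin 194 (.bin 192 (.tip n192) (.bin 193 (.tip n193) (.tip n194))) (.bin 196 (.bin 195 (.tip n195) (.tip n196)) (.bin 197 (.tip n197) (.tip n198)))))) (.bin 212 (.bin 205 (.bin 201 (.bin 199 (.tip n199) (.bin 200 (.tip n200) (.tip n201))) (.bin 203 (.bin 202 (.tip n202) (.tip n203)) (.bin 204 (.tip n204) (.tip n205)))) (.bin 208 (.bin 206 (.tip n206) (.bin 207 (.tip n207) (.tip n208))) (.bin 210 (.bin 209 (.tip n209) (.tip n210)) (.bin 211 (.tip n211) (.tip n212))))) (.bin 219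 (.bin 215 (.bin 213 (.tip n213) (.bin 214 (.tip n214) (.tip n215))) (.bin 217 (.bin 216 (.tip n216) (.tip n217)) (.bin 218 (.tip n218) (.tip n219)))) (.bin 223 (.bin 221 (.bin 220 (.tip n220) (.tip n221)) (.bin 222 (.tip n222) (.tip n223))) (.bin 225 (.bin 224 (.tip n224) (.tip n225)) (.bin 226 (.tip n226) (.tip n227)))))))

def tN4 : BT (List Node) :=
  (.bin 255 (.bin 241 (.bin 234 (.bin 230 (.bin 228 (.tip n228) (.bin 229 (.tip n229) (.tip n230))) (.bin 232 (.bin 231 (.tip n231) (.tip n232)) (.bin 233 (.tip n233) (.tip n234)))) (.bin 237 (.bin 235 (.tip n235) (.bin 236 (.tip n236) (.tip n237))) (.bin 239 (.bin 238 (.tip n238) (.tip n239)) (.bin 240 (.tip n240) (.tip n241))))) (.bin 248 (.bin 244 (.bin 242 (.tip n242) (.bin 243 (.tip n243) (.tip n244))) (.bin 246 (.bin 245 (.tip n245) (.tip n246)) (.bin 247 (.tip n247) (.tip n248)))) (.bin 251 (.bin 249 (.tip n249) (.bin 250 (.tip n250) (.tip n251))) (.bin 253 (.bin 252 (.tip n252) (.tip n253)) (.bin 254 (.tip n254) (.tip n255)))))) (.bin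 269 (.bin 262 (.bin 258 (.bin 256 (.tip n256) (.bin 257 (.tip n257) (.tip n258))) (.bin 260 (.bin 259 (.tip n259) (.tip n260)) (.bin 261 (.tip n261) (.tip n262)))) (.bin 265 (.bin 263 (.tip n263) (.bin 264 (.tip n264) (.tip n265))) (.bin 267 (.bin 266 (.tip n266) (.tip n267)) (.bin 268 (.tip n268) (.tip n269))))) (.bin 276 (.bin 272 (.bin 270 (.tip n270) (.bin 271 (.tip n271) (.tip n272))) (.bin 274 (.bin 273 (.tip n273) (.tip n274)) (.bin 275 (.tip n275) (.tip n276)))) (.bin 280 (.bin 278 (.bin 277 (.tip n277) (.tip n278)) (.bin 279 (.tip n279) (.tip n280))) (.bin 282 (.bin 281 (.tip n281) (.tip n282)) (.bin 283 (.tip n283) (.tip n284)))))))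

def tN5 : BT (List Node) :=
  (.bin 312 (.bin 298 (.bin 291 (.bin 287 (.bin 285 (.tip n285) (.bin 286 (.tip n286) (.tip n287))) (.bin 289 (.bin 288 (.tip n288) (.tip n289)) (.bin 290 (.tip n290) (.tip n291)))) (.bin 294 (.bin 292 (.tip n292) (.bin 293 (.tip n293) (.tip n294))) (.bin 296 (.bin 295 (.tip n295) (.tip n296)) (.bin 297 (.tip n297) (.tip n298))))) (.bin 305 (.bin 301 (.bin 299 (.tip n299) (.bin 300 (.tip n300) (.tip n301))) (.bin 303 (.bin 302 (.tip n302) (.tip n303)) (.bin 304 (.tip n304) (.tip n305)))) (.bin 308 (.bin 306 (.tip n306) (.bin 307 (.tip n307) (.tip n308))) (.bin 310 (.bin 309 (.tip n309) (.tip n310)) (.bin 311 (.tip n311) (.tip n312)))))) (.bin 326 (.bin 319 (.bin 315 (.bin 313 (.tip n313) (.bin 314 (.tip n314) (.tip n315))) (.bin 317 (.bin 316 (.tip n316) (.tip n317)) (.bin 318 (.tip n318) (.tip n319)))) (.bin 322 (.bin 320 (.tip n320) (.bin 321 (.tip n321) (.tip n322))) (.bin 324 (.bin 323 (.tip n323) (.tip n324)) (.bin 325 (.tip n325) (.tip n326))))) (.bin 333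 (.bin 329 (.bin 327 (.tip n327) (.bin 328 (.tip n328) (.tip n329))) (.bin 331 (.bin 330 (.tip n330) (.tip n331)) (.bin 332 (.tip n332) (.tip n333)))) (.bin 337 (.bin 335 (.bin 334 (.tip n334) (.tip n335)) (.bin 336 (.tip n336) (.tip n337))) (.bin 339 (.bin 338 (.tip n338) (.tip n339)) (.bin 340 (.tip n340) (.tip n341)))))))

def tN6 : BT (List Node) :=
  (.bin 369 (.bin 355 (.bin 348 (.bin 344 (.bin 342 (.tip n342) (.bin 343 (.tip n343) (.tip n344))) (.bin 346 (.bin 345 (.tip n345) (.tip n346)) (.bin 347 (.tip n347) (.tip n348)))) (.bin 351 (.bin 349 (.tip n349) (.bin 350 (.tip n350) (.tip n351))) (.bin 353 (.bin 352 (.tip n352) (.tip n353)) (.bin 354 (.tip n354) (.tip n355))))) (.bin 362 (.bin 358 (.bin 356 (.tip n356) (.bin 357 (.tip n357) (.tip n358))) (.bin 360 (.bin 359 (.tip n359) (.tip n360)) (.bin 361 (.tip n361) (.tip n362)))) (.bin 365 (.bin 363 (.tip n363) (.bin 364 (.tip n364) (.tip n365))) (.bin 367 (.bin 366 (.tip n366) (.tip n367)) (.bin 368 (.tip n368) (.tip n369)))))) (.bin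 383 (.bin 376 (.bin 372 (.bin 370 (.tip n370) (.bin 371 (.tip n371) (.tip n372))) (.bin 374 (.bin 373 (.tip n373) (.tip n374)) (.bin 375 (.tip n375) (.tip n376)))) (.bin 379 (.bin 377 (.tip n377) (.bin 378 (.tip n378) (.tip n379))) (.bin 381 (.bin 380 (.tip n380) (.tip n381)) (.bin 382 (.tip n382) (.tip n383))))) (.bin 390 (.bin 386 (.bin 384 (.tip n384) (.bin 385 (.tip n385) (.tip n386))) (.bin 388 (.bin 387 (.tip n387) (.tip n388)) (.bin 389 (.tip n389) (.tip n390)))) (.bin 394 (.bin 392 (.bin 391 (.tip n391) (.tip n392)) (.bin 393 (.tip n393) (.tip n394))) (.bin 396 (.bin 395 (.tip n395) (.tip n396)) (.bin 397 (.tip n397) (.tip n398)))))))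

def tN7 : BT (List Node) :=
  (.bin 426 (.bin 412 (.bin 405 (.bin 401 (.bin 399 (.tip n399) (.bin 400 (.tip n400) (.tip n401))) (.bin 403 (.bin 402 (.tip n402) (.tip n403)) (.bin 404 (.tip n404) (.tip n405)))) (.bin 408 (.bin 406 (.tip n406) (.bin 407 (.tip n407) (.tip n408))) (.bin 410 (.bin 409 (.tip n409) (.tip n410)) (.bin 411 (.tip n411) (.tip n412))))) (.bin 419 (.bin 415 (.bin 413 (.tip n413) (.bin 414 (.tip n414) (.tip n415))) (.bin 417 (.bin 416 (.tip n416) (.tip n417)) (.bin 418 (.tip n418) (.tip n419)))) (.bin 422 (.bin 420 (.tip n420) (.bin 421 (.tip n421) (.tip n422))) (.bin 424 (.bin 423 (.tip n423) (.tip n424)) (.bin 425 (.tip n425) (.tip n426)))))) (.bin 440 (.bin 433 (.bin 429 (.bin 427 (.tip n427) (.bin 428 (.tip n428) (.tip n429))) (.bin 431 (.bin 430 (.tip n430) (.tip n431)) (.bin 432 (.tip n432) (.tip n433)))) (.bin 436 (.bin 434 (.tip n434) (.bin 435 (.tip n435) (.tip n436))) (.bin 438 (.bin 437 (.tip n437) (.tip n438)) (.bin 439 (.tip n439) (.tip n440))))) (.bin 447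 (.bin 443 (.bin 441 (.tip n441) (.bin 442 (.tip n442) (.tip n443))) (.bin 445 (.bin 444 (.tip n444) (.tip n445)) (.bin 446 (.tip n446) (.tip n447)))) (.bin 451 (.bin 449 (.bin 448 (.tip n448) (.tip n449)) (.bin 450 (.tip n450) (.tip n451))) (.bin 453 (.bin 452 (.tip n452) (.tip n453)) (.bin 454 (.tip n454) (.tip n455)))))))

def tN8 : BT (List Node) :=
  (.bin 483 (.bin 469 (.bin 462 (.bin 458 (.bin 456 (.tip n456) (.bin 457 (.tip n457) (.tip n458))) (.bin 460 (.bin 459 (.tip n459) (.tip n460)) (.bin 461 (.tip n461) (.tip n462)))) (.bin 465 (.bin 463 (.tip n463) (.bin 464 (.tip n464) (.tip n465))) (.bin 467 (.bin 466 (.tip n466) (.tip n467)) (.bin 468 (.tip n468) (.tip n469))))) (.bin 476 (.bin 472 (.bin 470 (.tip n470) (.bin 471 (.tip n471) (.tip n472))) (.bin 474 (.bin 473 (.tip n473) (.tip n474)) (.bin 475 (.tip n475) (.tip n476)))) (.bin 479 (.bin 477 (.tip n477) (.bin 478 (.tip n478) (.tip n479))) (.bin 481 (.bin 480 (.tip n480) (.tip n481)) (.bin 482 (.tip n482) (.tip n483)))))) (.bin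 497 (.bin 490 (.bin 486 (.bin 484 (.tip n484) (.bin 485 (.tip n485) (.tip n486))) (.bin 488 (.bin 487 (.tip n487) (.tip n488)) (.bin 489 (.tip n489) (.tip n490)))) (.bin 493 (.bin 491 (.tip n491) (.bin 492 (.tip n492) (.tip n493))) (.bin 495 (.bin 494 (.tip n494) (.tip n495)) (.bin 496 (.tip n496) (.tip n497))))) (.bin 504 (.bin 500 (.bin 498 (.tip n498) (.bin 499 (.tip n499) (.tip n500))) (.bin 502 (.bin 501 (.tip n501) (.tip n502)) (.bin 503 (.tip n503) (.tip n504)))) (.bin 508 (.bin 506 (.bin 505 (.tip n505) (.tip n506)) (.bin 507 (.tip n507) (.tip n508))) (.bin 510 (.bin 509 (.tip n509) (.tip n510)) (.bin 511 (.tip n511) (.tip n512)))))))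

def tN9 : BT (List Node) :=
  (.bin 540 (.bin 526 (.bin 519 (.bin 515 (.bin 513 (.tip n513) (.bin 514 (.tip n514) (.tip n515))) (.bin 517 (.bin 516 (.tip n516) (.tip n517)) (.bin 518 (.tip n518) (.tip n519)))) (.bin 522 (.bin 520 (.tip n520) (.bin 521 (.tip n521) (.tip n522))) (.bin 524 (.bin 523 (.tip n523) (.tip n524)) (.bin 525 (.tip n525) (.tip n526))))) (.bin 533 (.bin 529 (.bin 527 (.tip n527) (.bin 528 (.tip n528) (.tip n529))) (.bin 531 (.bin 530 (.tip n530) (.tip n531)) (.bin 532 (.tip n532) (.tip n533)))) (.bin 536 (.bin 534 (.tip n534) (.bin 535 (.tip n535) (.tip n536))) (.bin 538 (.bin 537 (.tip n537) (.tip n538)) (.bin 539 (.tip n539) (.tip n540)))))) (.bin 554 (.bin 547 (.bin 543 (.bin 541 (.tip n541) (.bin 542 (.tip n542) (.tip n543))) (.bin 545 (.bin 544 (.tip n544) (.tip n545)) (.bin 546 (.tip n546) (.tip n547)))) (.bin 550 (.bin 548 (.tip n548) (.bin 549 (.tip n549) (.tip n550))) (.bin 552 (.bin 551 (.tip n551) (.tip n552)) (.bin 553 (.tip n553) (.tip n554))))) (.bin 561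 (.bin 557 (.bin 555 (.tip n555) (.bin 556 (.tip n556) (.tip n557))) (.bin 559 (.bin 558 (.tip n558) (.tip n559)) (.bin 560 (.tip n560) (.tip n561)))) (.bin 565 (.bin 563 (.bin 562 (.tip n562) (.tip n563)) (.bin 564 (.tip n564) (.tip n565))) (.bin 567 (.bin 566 (.tip n566) (.tip n567)) (.bin 568 (.tip n568) (.tip n569)))))))

def tN10 : BT (List Node) :=
  (.bin 597 (.bin 583 (.bin 576 (.bin 572 (.bin 570 (.tip n570) (.bin 571 (.tip n571) (.tip n572))) (.bin 574 (.bin 573 (.tip n573) (.tip n574)) (.bin 575 (.tip n575) (.tip n576)))) (.bin 579 (.bin 577 (.tip n577) (.bin 578 (.tip n578) (.tip n579))) (.bin 581 (.bin 580 (.tip n580) (.tip n581)) (.bin 582 (.tip n582) (.tip n583))))) (.bin 590 (.bin 586 (.bin 584 (.tip n584) (.bin 585 (.tip n585) (.tip n586))) (.bin 588 (.bin 587 (.tip n587) (.tip n588)) (.bin 589 (.tip n589) (.tip n590)))) (.bin 593 (.bin 591 (.tip n591) (.bin 592 (.tip n592) (.tip n593))) (.bin 595 (.bin 594 (.tip n594) (.tip n595)) (.bin 596 (.tip n596) (.tip n597)))))) (.bin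 611 (.bin 604 (.bin 600 (.bin 598 (.tip n598) (.bin 599 (.tip n599) (.tip n600))) (.bin 602 (.bin 601 (.tip n601) (.tip n602)) (.bin 603 (.tip n603) (.tip n604)))) (.bin 607 (.bin 605 (.tip n605) (.bin 606 (.tip n606) (.tip n607))) (.bin 609 (.bin 608 (.tip n608) (.tip n609)) (.bin 610 (.tip n610) (.tip n611))))) (.bin 618 (.bin 614 (.bin 612 (.tip n612) (.bin 613 (.tip n613) (.tip n614))) (.bin 616 (.bin 615 (.tip n615) (.tip n616)) (.bin 617 (.tip n617) (.tip n618)))) (.bin 622 (.bin 620 (.bin 619 (.tip n619) (.tip n620)) (.bin 621 (.tip n621) (.tip n622))) (.bin 624 (.bin 623 (.tip n623) (.tip n624)) (.bin 625 (.tip n625) (.tip n626)))))))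

def tN11 : BT (List Node) :=
  (.bin 654 (.bin 640 (.bin 633 (.bin 629 (.bin 627 (.tip n627) (.bin 628 (.tip n628) (.tip n629))) (.bin 631 (.bin 630 (.tip n630) (.tip n631)) (.bin 632 (.tip n632) (.tip n633)))) (.bin 636 (.bin 634 (.tip n634) (.bin 635 (.tip n635) (.tip n636))) (.bin 638 (.bin 637 (.tip n637) (.tip n638)) (.bin 639 (.tip n639) (.tip n640))))) (.bin 647 (.bin 643 (.bin 641 (.tip n641) (.bin 642 (.tip n642) (.tip n643))) (.bin 645 (.bin 644 (.tip n644) (.tip n645)) (.bin 646 (.tip n646) (.tip n647)))) (.bin 650 (.bin 648 (.tip n648) (.bin 649 (.tip n649) (.tip n650))) (.bin 652 (.bin 651 (.tip n651) (.tip n652)) (.bin 653 (.tip n653) (.tip n654)))))) (.bin 668 (.bin 661 (.bin 657 (.bin 655 (.tip n655) (.bin 656 (.tip n656) (.tip n657))) (.bin 659 (.bin 658 (.tip n658) (.tip n659)) (.bin 660 (.tip n660) (.tip n661)))) (.bin 664 (.bin 662 (.tip n662) (.bin 663 (.tip n663) (.tip n664))) (.bin 666 (.bin 665 (.tip n665) (.tip n666)) (.bin 667 (.tip n667) (.tip n668))))) (.bin 675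 (.bin 671 (.bin 669 (.tip n669) (.bin 670 (.tip n670) (.tip n671))) (.bin 673 (.bin 672 (.tip n672) (.tip n673)) (.bin 674 (.tip n674) (.tip n675)))) (.bin 679 (.bin 677 (.bin 676 (.tip n676) (.tip n677)) (.bin 678 (.tip n678) (.tip n679))) (.bin 681 (.bin 680 (.tip n680) (.tip n681)) (.bin 682 (.tip n682) (.tip n683)))))))

def tN12 : BT (List Node) :=
  (.bin 711 (.bin 697 (.bin 690 (.bin 686 (.bin 684 (.tip n684) (.bin 685 (.tip n685) (.tip n686))) (.bin 688 (.bin 687 (.tip n687) (.tip n688)) (.bin 689 (.tip n689) (.tip n690)))) (.bin 693 (.bin 691 (.tip n691) (.bin 692 (.tip n692) (.tip n693))) (.bin 695 (.bin 694 (.tip n694) (.tip n695)) (.bin 696 (.tip n696) (.tip n697))))) (.bin 704 (.bin 700 (.bin 698 (.tip n698) (.bin 699 (.tip n699) (.tip n700))) (.bin 702 (.bin 701 (.tip n701) (.tip n702)) (.bin 703 (.tip n703) (.tip n704)))) (.bin 707 (.bin 705 (.tip n705) (.bin 706 (.tip n706) (.tip n707))) (.bin 709 (.bin 708 (.tip n708) (.tip n709)) (.bin 710 (.tip n710) (.tip n711)))))) (.bin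 725 (.bin 718 (.bin 714 (.bin 712 (.tip n712) (.bin 713 (.tip n713) (.tip n714))) (.bin 716 (.bin 715 (.tip n715) (.tip n716)) (.bin 717 (.tip n717) (.tip n718)))) (.bin 721 (.bin 719 (.tip n719) (.bin 720 (.tip n720) (.tip n721))) (.bin 723 (.bin 722 (.tip n722) (.tip n723)) (.bin 724 (.tip n724) (.tip n725))))) (.bin 732 (.bin 728 (.bin 726 (.tip n726) (.bin 727 (.tip n727) (.tip n728))) (.bin 730 (.bin 729 (.tip n729) (.tip n730)) (.bin 731 (.tip n731) (.tip n732)))) (.bin 736 (.bin 734 (.bin 733 (.tip n733) (.tip n734)) (.bin 735 (.tip n735) (.tip n736))) (.bin 738 (.bin 737 (.tip n737) (.tip n738)) (.bin 739 (.tip n739) (.tip n740)))))))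

def tN13 : BT (List Node) :=
  (.bin 768 (.bin 754 (.bin 747 (.bin 743 (.bin 741 (.tip n741) (.bin 742 (.tip n742) (.tip n743))) (.bin 745 (.bin 744 (.tip n744) (.tip n745)) (.bin 746 (.tip n746) (.tip n747)))) (.bin 750 (.bin 748 (.tip n748) (.bin 749 (.tip n749) (.tip n750))) (.bin 752 (.bin 751 (.tip n751) (.tip n752)) (.bin 753 (.tip n753) (.tip n754))))) (.bin 761 (.bin 757 (.bin 755 (.tip n755) (.bin 756 (.tip n756) (.tip n757))) (.bin 759 (.bin 758 (.tip n758) (.tip n759)) (.bin 760 (.tip n760) (.tip n761)))) (.bin 764 (.bin 762 (.tip n762) (.bin 763 (.tip n763) (.tip n764))) (.bin 766 (.bin 765 (.tip n765) (.tip n766)) (.bin 767 (.tip n767) (.tip n768)))))) (.bin 782 (.bin 775 (.bin 771 (.bin 769 (.tip n769) (.bin 770 (.tip n770) (.tip n771))) (.bin 773 (.bin 772 (.tip n772) (.tip n773)) (.bin 774 (.tip n774) (.tip n775)))) (.bin 778 (.bin 776 (.tip n776) (.bin 777 (.tip n777) (.tip n778))) (.bin 780 (.bin 779 (.tip n779) (.tip n780)) (.bin 781 (.tip n781) (.tip n782))))) (.bin 789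 (.bin 785 (.bin 783 (.tip n783) (.bin 784 (.tip n784) (.tip n785))) (.bin 787 (.bin 786 (.tip n786) (.tip n787)) (.bin 788 (.tip n788) (.tip n789)))) (.bin 793 (.bin 791 (.bin 790 (.tip n790) (.tip n791)) (.bin 792 (.tip n792) (.tip n793))) (.bin 795 (.bin 794 (.tip n794) (.tip n795)) (.bin 796 (.tip n796) (.tip n797)))))))

def tN14 : BT (List Node) :=
  (.bin 825 (.bin 811 (.bin 804 (.bin 800 (.bin 798 (.tip n798) (.bin 799 (.tip n799) (.tip n800))) (.bin 802 (.bin 801 (.tip n801) (.tip n802)) (.bin 803 (.tip n803) (.tip n804)))) (.bin 807 (.bin 805 (.tip n805) (.bin 806 (.tip n806) (.tip n807))) (.bin 809 (.bin 808 (.tip n808) (.tip n809)) (.bin 810 (.tip n810) (.tip n811))))) (.bin 818 (.bin 814 (.bin 812 (.tip n812) (.bin 813 (.tip n813) (.tip n814))) (.bin 816 (.bin 815 (.tip n815) (.tip n816)) (.bin 817 (.tip n817) (.tip n818)))) (.bin 821 (.bin 819 (.tip n819) (.bin 820 (.tip n820) (.tip n821))) (.bin 823 (.bin 822 (.tip n822) (.tip n823)) (.bin 824 (.tip n824) (.tip n825)))))) (.bin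 839 (.bin 832 (.bin 828 (.bin 826 (.tip n826) (.bin 827 (.tip n827) (.tip n828))) (.bin 830 (.bin 829 (.tip n829) (.tip n830)) (.bin 831 (.tip n831) (.tip n832)))) (.bin 835 (.bin 833 (.tip n833) (.bin 834 (.tip n834) (.tip n835))) (.bin 837 (.bin 836 (.tip n836) (.tip n837)) (.bin 838 (.tip n838) (.tip n839))))) (.bin 846 (.bin 842 (.bin 840 (.tip n840) (.bin 841 (.tip n841) (.tip n842))) (.bin 844 (.bin 843 (.tip n843) (.tip n844)) (.bin 845 (.tip n845) (.tip n846)))) (.bin 850 (.bin 848 (.bin 847 (.tip n847) (.tip n848)) (.bin 849 (.tip n849) (.tip n850))) (.bin 852 (.bin 851 (.tip n851) (.tip n852)) (.bin 853 (.tip n853) (.tip n854)))))))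

def tN15 : BT (List Node) :=
  (.bin 879 (.bin 866 (.bin 860 (.bin 857 (.bin 855 (.tip n855) (.bin 856 (.tip n856) (.tip n857))) (.bin 858 (.tip n858) (.bin 859 (.tip n859) (.tip n860)))) (.bin 863 (.bin 861 (.tip n861) (.bin 862 (.tip n862) (.tip n863))) (.bin 864 (.tip n864) (.bin 865 (.tip n865) (.tip n866))))) (.bin 872 (.bin 869 (.bin 867 (.tip n867) (.bin 868 (.tip n868) (.tip n869))) (.bin 870 (.tip n870) (.bin 871 (.tip n871) (.tip n872)))) (.bin 875 (.bin 873 (.tip n873) (.bin 874 (.tip n874) (.tip n875))) (.bin 877 (.bin 876 (.tip n876) (.tip n877)) (.bin 878 (.tip n878) (.tip n879)))))) (.bin 891 (.bin 885 (.bin 882 (.bin 880 (.tip n880) (.bin 881 (.tip n881) (.tip n882))) (.bin 883 (.tip n883) (.bin 884 (.tip n884) (.tip n885)))) (.bin 888 (.bin 886 (.tip n886) (.bin 887 (.tip n887) (.tip n888))) (.bin 889 (.tip n889) (.bin 890 (.tip n890) (.tip n891))))) (.bin 897 (.bin 894 (.bin 892 (.tip n892) (.bin 893 (.tip n893) (.tip n894))) (.bin 895 (.tip n895) (.bin 896 (.tip n896) (.tip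 n897)))) (.bin 900 (.bin 898 (.tip n898) (.bin 899 (.tip n899) (.tip n900))) (.bin 902 (.bin 901 (.tip n901) (.tip n902)) (.bin 903 (.tip n903) (.tip n904)))))))

def tN : BT (List Node) := (.bin 455 (.bin 227 (.bin 113 (.bin 56 tN0 tN1) (.bin 170 tN2 tN3)) (.bin 341 (.bin 284 tN4 tN5) (.bin 398 tN6 tN7))) (.bin 683 (.bin 569 (.bin 512 tN8 tN9) (.bin 626 tN10 tN11)) (.bin 797 (.bin 740 tN12 tN13) (.bin 854 tN14 tN15))))

/-- the canonical states -/
noncomputable def C (i : ℕ) : ℕ × ℕ := tC.get i

/-- the steps -/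
noncomputable def E (i : ℕ) : List Grp := tE.get i

/-- the closures -/
noncomputable def N (i : ℕ) : List Node := tN.get i

end Vale.Agent.P032.H838.GD
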